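import Mathlib

/-!
Colourings of Euclidean spaces and prescribed pairs of points.

`Ach E` says: for every finite colour type some space has, for each of its colourings, a distance
preserving embedding (from a finite list) after which each pair in `E` has equal colours.
-/

namespace Vale.Agent.P058.LRW

open Finset

/-- Squared distance of two tuples. -/
def sqd {ι : Type} [Fintype ι] (x y : ι → ℝ) : ℝ := ∑ i, (x i - y i) ^ 2

/-- The map preserves squared distances. -/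
def Keeps {ι κ : Type} [Fintype ι] [Fintype κ] (Φ : (ι → ℝ) → κ → ℝ) : Prop :=
  ∀ x y, sqd (Φ x) (Φ y) = sqd x y

variable {ι : Type} [Fintype ι]

set_option linter.unusedSectionVars false

/-- Every colouring admits an embedding that equalises the colours on each pair. -/
def Ach (E : Finset ((ι → ℝ) × (ι → ℝ))) : Prop :=
  ∀ (γ : Type) [Fintype γ], ∃ (κ : Type) (_ : Fintype κ) (C : Finset ((ι → ℝ) → κ → ℝ)),
    (∀ Φ ∈ C, Keeps Φ) ∧ ∀ χ : (κ → ℝ) → γ, ∃ Φ ∈ C, ∀ p ∈ E, χ (Φ p.1) = χ (Φ p.2)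

/-- Equivalence generated by a finite list of pairs. -/
def Eqv (E : Finset ((ι → ℝ) × (ι → ℝ))) (x y : ι → ℝ) : Prop :=
  Relation.EqvGen (fun a b => (a, b) ∈ E) x y

lemma Eqv.colour {E : Finset ((ι → ℝ) × (ι → ℝ))} {γ : Type} {g : (ι → ℝ) → γ}
    (h : ∀ p ∈ E, g p.1 = g p.2) {x y : ι → ℝ} (hxy : Eqv E x y) : g x = g y := by
  induction hxy with
  | rel a b hab => exact h _ hab
  | refl a => rfl
  | symm a b _ ih => exact ih.symm
  | trans a b c _ _ ih₁ ih₂ => exact ih₁.trans ih₂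

lemma Ach.mono {E F : Finset ((ι → ℝ) × (ι → ℝ))} (h : Ach E) (hF : ∀ p ∈ F, Eqv E p.1 p.2) :
    Ach F := fun γ _ => by
  obtain ⟨κ, hκ, C, hC, hχ⟩ := h γ
  refine ⟨κ, hκ, C, hC, fun χ => ?_⟩
  obtain ⟨Φ, hΦ, he⟩ := hχ χ
  exact ⟨Φ, hΦ, fun p hp => Eqv.colour (g := fun v => χ (Φ v)) he (hF p hp)⟩

lemma ach_empty : Ach (∅ : Finset ((ι → ℝ) × (ι → ℝ))) := fun γ _ =>
  ⟨ι, inferInstance, {id}, by simp [Keeps], fun χ => ⟨id, by simp, by simp⟩⟩

lemma sqd_smul (c : ℝ) (x y : ι → ℝ) : sqd (c • x) (c • y) = c ^ 2 * sqd x y := by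
  simp only [sqd, mul_sum, Pi.smul_apply, smul_eq_mul]
  exact sum_congr rfl fun i _ => by ring

lemma sqd_self (x : ι → ℝ) : sqd x x = 0 := by simp [sqd]

open scoped Classical in
lemma Ach.scale {E : Finset ((ι → ℝ) × (ι → ℝ))} (h : Ach E) {c : ℝ} (hc : c ≠ 0) :
    Ach (E.image fun p => (c • p.1, c • p.2)) := fun γ _ => by
  obtain ⟨κ, hκ, C, hC, hχ⟩ := h γ
  refine ⟨κ, hκ, C.image fun Φ x => c • Φ (c⁻¹ • x), ?_, fun χ => ?_⟩
  · intro Ψ hΨ
    obtain ⟨Φ, hΦ, rfl⟩ := mem_image.1 hΨ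
    intro x y
    rw [sqd_smul, hC Φ hΦ, sqd_smul, ← mul_assoc, ← mul_pow, mul_inv_cancel₀ hc, one_pow, one_mul]
  · obtain ⟨Φ, hΦ, he⟩ := hχ fun v => χ (c • v)
    refine ⟨_, mem_image_of_mem _ hΦ, ?_⟩
    intro p hp
    obtain ⟨q, hq, rfl⟩ := mem_image.1 hp
    simpa [smul_smul, inv_mul_cancel₀ hc] using he q hq

open scoped Classical in
/-- Several segments at once: changing one segment along a pair never changes the colour. -/
lemma Ach.prod {E : Finset ((ι → ℝ) × (ι → ℝ))} (h : Ach E) (Z : Finset (ι → ℝ)) (e : ℕ) :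
    ∀ (γ : Type) [Fintype γ], ∃ (κ : Type) (_ : Fintype κ)
      (C : Finset ((Fin e → ι → ℝ) → κ → ℝ)),
      (∀ P ∈ C, ∀ f g, sqd (P f) (P g) = ∑ m, sqd (f m) (g m)) ∧
      ∀ χ : (κ → ℝ) → γ, ∃ P ∈ C, ∀ f : Fin e → ι → ℝ, (∀ m, f m ∈ Z) → ∀ m, ∀ p ∈ E,
        χ (P (Function.update f m p.1)) = χ (P (Function.update f m p.2)) := by
  induction e with
  | zero =>
    intro γ _
    exact ⟨Empty, inferInstance, {fun _ => Empty.elim}, by simp [sqd],
      fun χ => ⟨_, mem_singleton_self _, fun f _ m => m.elim0⟩⟩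
  | succ e ih =>
    intro γ _
    obtain ⟨κo, hκo, Co, hCo, ho⟩ := ih (↥Z → γ)
    obtain ⟨κn, hκn, Cn, hCn, hn⟩ := h (↥Co → (Fin e → ↥Z) → γ)
    refine ⟨κn ⊕ κo, inferInstance,
      (Cn ×ˢ Co).image (fun ΦP f => Sum.elim (ΦP.1 (f 0)) (ΦP.2 (Fin.tail f))), ?_, fun χ => ?_⟩
    · intro P hP f g
      obtain ⟨⟨Φ, Po⟩, hm, rfl⟩ := mem_image.1 hP
      obtain ⟨hΦ, hPo⟩ := mem_product.1 hm
      have hs : ∀ (a b : κn → ℝ) (c d : κo → ℝ),
          sqd (Sum.elim a c) (Sum.elim b d) = sqd a b + sqd c d := by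
        intro a b c d; simp [sqd, Fintype.sum_sum_type]
      rw [hs, Fin.sum_univ_succ, hCn Φ hΦ, hCo Po hPo]
      rfl
    · obtain ⟨Φ, hΦ, hΦe⟩ := hn fun x P g =>
        χ (Sum.elim x ((P : (Fin e → ι → ℝ) → κo → ℝ) fun j => (g j : ι → ℝ)))
      obtain ⟨Po, hPo, hPoe⟩ := ho fun y z => χ (Sum.elim (Φ (z : ι → ℝ)) y)
      refine ⟨_, mem_image_of_mem _ (mem_product.2 ⟨hΦ, hPo⟩ : (Φ, Po) ∈ Cn ×ˢ Co), ?_⟩
      intro f hf m p hp
      refine Fin.cases ?_ (fun j => ?_) m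
      · simp only [Fin.tail_update_zero, Function.update_self]
        exact congrFun (congrFun (hΦe p hp) ⟨Po, hPo⟩) fun j => ⟨Fin.tail f j, hf j.succ⟩
      · simp only [Fin.tail_update_succ, Function.update_of_ne (Fin.succ_ne_zero j).symm]
        exact congrFun (hPoe (Fin.tail f) (fun i => hf i.succ) j p hp) ⟨f 0, hf 0⟩

open scoped Classical in
/-- One more pair `(z, σ z)` by the pigeonhole principle. -/
lemma Ach.step {E F : Finset ((ι → ℝ) × (ι → ℝ))} (h : Ach E) {σ : (ι → ℝ) → ι → ℝ}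
    (hσ : Keeps σ) {z : ι → ℝ} (hF : ∀ p ∈ F, Eqv E p.1 p.2 ∧ Eqv E (σ p.1) (σ p.2))
    (hz : Eqv E (σ (σ z)) z) : Ach (insert (z, σ z) F) := fun γ _ => by
  set c : ℝ := Real.sqrt (1 / 2) with hcdef
  have hc2 : c ^ 2 = 1 / 2 := Real.sq_sqrt (by norm_num)
  have hc : c ≠ 0 := (Real.sqrt_pos.2 (by norm_num)).ne'
  let Z : Finset (ι → ℝ) :=
    insert (c • z) (insert (c • σ z) ((F.image fun p => c • p.1) ∪ F.image fun p => c • σ p.2))
  set e := Fintype.card γ + 1 with he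
  obtain ⟨κ, hκ, C, hC, hχ⟩ := (h.scale hc).prod Z e γ
  let emb : ((Fin e → ι → ℝ) → κ → ℝ) × Fin e × Fin e → (ι → ℝ) → κ → ℝ := fun t y =>
    t.1 (Function.update (Function.update (fun _ => c • z) t.2.1 (c • y)) t.2.2 (c • σ y))
  refine ⟨κ, hκ, ((C ×ˢ univ).filter fun t => t.2.1 ≠ t.2.2).image emb, ?_, fun χ => ?_⟩
  · intro Φ hΦ
    obtain ⟨⟨P, a, b⟩, ht, rfl⟩ := mem_image.1 hΦ
    obtain ⟨hm, hab⟩ := mem_filter.1 ht
    intro x y
    simp only [emb]
    rw [hC P (mem_product.1 hm).1, sum_eq_add a b hab]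
    · simp only [Function.update_self, Function.update_of_ne hab, sqd_smul, hc2, hσ x y]
      ring
    · intro m _ hm'
      simp [Function.update_of_ne hm'.1, Function.update_of_ne hm'.2, sqd_self]
    · simp
    · simp
  · obtain ⟨P, hP, hPe⟩ := hχ χ
    obtain ⟨a, b, hab, heq⟩ := Fintype.exists_ne_map_eq_of_card_lt
      (fun m => χ (P (Function.update (fun _ => c • z) m (c • σ z)))) (by simp [he])
    have move : ∀ f : Fin e → ι → ℝ, (∀ m, f m ∈ Z) → ∀ m u v, Eqv E u v →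
        χ (P (Function.update f m (c • u))) = χ (P (Function.update f m (c • v))) := by
      intro f hf m u v huv
      exact Eqv.colour (g := fun w => χ (P (Function.update f m (c • w))))
        (fun p hp => hPe f hf m (c • p.1, c • p.2) (mem_image_of_mem _ hp)) huv
    have hZz : c • z ∈ Z := mem_insert_self _ _
    have hup : ∀ m v, v ∈ Z → ∀ i, Function.update (fun _ : Fin e => c • z) m v i ∈ Z := by
      intro m v hv i
      rcases eq_or_ne i m with rfl | hi
      · simpa using hv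
      · simpa [Function.update_of_ne hi] using hZz
    refine ⟨emb (P, a, b), mem_image_of_mem _ (mem_filter.2 ⟨mem_product.2 ⟨hP, mem_univ _⟩, hab⟩),
      fun p hp => ?_⟩
    rcases mem_insert.1 hp with rfl | hp'
    · simp only [emb]
      rw [Function.update_eq_self, move _ (hup a _ (by simp [Z])) b (σ (σ z)) z hz,
        Function.update_comm hab, Function.update_eq_self]
      exact heq.symm
    · obtain ⟨h1, h2⟩ := hF p hp'
      simp only [emb]
      rw [move _ (hup a _ (by simp [Z]; exact Or.inr (Or.inr (Or.inl ⟨p.1, ⟨_, hp'⟩, rfl⟩)))) b _ _ h2,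
        Function.update_comm hab, move _ (hup b _ (by simp [Z]; exact Or.inr (Or.inr (Or.inr ⟨p.1, p.2, hp', rfl⟩)))) a _ _ h1,
        Function.update_comm hab]

/-- Compositions of maps from a list of generators. -/
inductive Word (T : Set ((ι → ℝ) → ι → ℝ)) : ((ι → ℝ) → ι → ℝ) → Prop
  | one : Word T id
  | cons {f t : (ι → ℝ) → ι → ℝ} : Word T f → t ∈ T → Word T (t ∘ f)

/-- Every finite list of pairs joined by generators can be equalised. -/
def Inv (T : Set ((ι → ℝ) → ι → ℝ)) : Prop :=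
  ∀ E : Finset ((ι → ℝ) × (ι → ℝ)), (∀ p ∈ E, ∃ t ∈ T, p.2 = t p.1) → Ach E

lemma Word.append {T : Set ((ι → ℝ) → ι → ℝ)} {f g : (ι → ℝ) → ι → ℝ} (hf : Word T f)
    (hg : Word T g) : Word T (f ∘ g) := by
  induction hf with
  | one => simpa using hg
  | cons _ ht ih => simpa [Function.comp_assoc] using ih.cons ht

lemma Word.single {T : Set ((ι → ℝ) → ι → ℝ)} {t : (ι → ℝ) → ι → ℝ} (ht : t ∈ T) : Word T t := by
  simpa using (Word.one (T := T)).cons ht

lemma Word.mono {T U : Set ((ι → ℝ) → ι → ℝ)} (h : T ⊆ U) {f : (ι → ℝ) → ι → ℝ} (hf : Word T f) :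
    Word U f := by
  induction hf with
  | one => exact .one
  | cons _ ht ih => exact ih.cons (h ht)

open scoped Classical in
lemma Word.eqv {T : Set ((ι → ℝ) → ι → ℝ)} {f : (ι → ℝ) → ι → ℝ} (hf : Word T f) (z : ι → ℝ) :
    ∃ E : Finset ((ι → ℝ) × (ι → ℝ)), (∀ p ∈ E, ∃ t ∈ T, p.2 = t p.1) ∧ Eqv E z (f z) := by
  induction hf with
  | one => exact ⟨∅, by simp, .refl _⟩
  | @cons f t _ ht ih =>
    obtain ⟨E, hE, hz⟩ := ih
    refine ⟨insert (f z, t (f z)) E, ?_, ?_⟩
    · intro p hp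
      rcases mem_insert.1 hp with rfl | hp
      · exact ⟨t, ht, rfl⟩
      · exact hE p hp
    · exact .trans _ (f z) _ (Relation.EqvGen.mono (fun a b hab => mem_insert_of_mem hab) _ _ hz)
        (.rel _ _ (mem_insert_self _ _))

open scoped Classical in
/-- Invariance under generators gives invariance under their compositions. -/
lemma Inv.words {T : Set ((ι → ℝ) → ι → ℝ)} (h : Inv T) (E : Finset ((ι → ℝ) × (ι → ℝ)))
    (hE : ∀ p ∈ E, ∃ f, Word T f ∧ p.2 = f p.1) : Ach E := by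
  have hall : ∀ p : E, ∃ E' : Finset ((ι → ℝ) × (ι → ℝ)),
      (∀ q ∈ E', ∃ t ∈ T, q.2 = t q.1) ∧ Eqv E' p.1.1 p.1.2 := by
    intro p
    obtain ⟨f, hf, he⟩ := hE p.1 p.2
    rw [he]
    exact hf.eqv _
  choose E' h1 h2 using hall
  refine (h (univ.biUnion E') fun q hq => ?_).mono fun p hp => ?_
  · obtain ⟨p, -, hq⟩ := mem_biUnion.1 hq
    exact h1 p q hq
  · exact Relation.EqvGen.mono (fun a b hab => mem_biUnion.2 ⟨⟨p, hp⟩, mem_univ _, hab⟩) _ _ (h2 ⟨p, hp⟩)

lemma Inv.mono {T U : Set ((ι → ℝ) → ι → ℝ)} (h : Inv T) (hU : U ⊆ T) : Inv U :=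
  fun E hE => h E fun p hp => (hE p hp).imp fun _ ht => ⟨hU ht.1, ht.2⟩

lemma inv_empty : Inv (∅ : Set ((ι → ℝ) → ι → ℝ)) := by
  intro E hE
  refine ach_empty.mono fun p hp => ?_
  obtain ⟨t, ht, -⟩ := hE p hp
  exact absurd ht (Set.notMem_empty t)

open scoped Classical in
/-- One more generator whose square is a word. -/
lemma Inv.extend {T : Set ((ι → ℝ) → ι → ℝ)} (h : Inv T) {σ : (ι → ℝ) → ι → ℝ} (hσ : Keeps σ)
    (hnorm : ∀ t ∈ T, ∃ w, Word T w ∧ σ ∘ t = w ∘ σ) (hsq : Word T (σ ∘ σ)) :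
    Inv (insert σ T) := by
  suffices H : ∀ zs : Finset (ι → ℝ), ∀ E : Finset ((ι → ℝ) × (ι → ℝ)),
      (∀ p ∈ E, ∃ f, Word T f ∧ p.2 = f p.1) → Ach (E ∪ zs.image fun z => (z, σ z)) by
    intro E hE
    refine (H ((E.filter fun p => p.2 = σ p.1).image Prod.fst) (E.filter fun p => p.2 ≠ σ p.1)
      fun p hp => ?_).mono fun p hp => .rel _ _ ?_
    · obtain ⟨hp, hne⟩ := mem_filter.1 hp
      obtain ⟨t, ht, he⟩ := hE p hp
      rcases Set.mem_insert_iff.1 ht with rfl | ht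
      · exact absurd he hne
      · exact ⟨t, .single ht, he⟩
    · by_cases hc : p.2 = σ p.1
      · refine mem_union_right _ (mem_image.2 ⟨p.1, mem_image.2 ⟨p, ?_, rfl⟩, ?_⟩)
        · exact mem_filter.2 ⟨hp, hc⟩
        · exact Prod.ext rfl hc.symm
      · exact mem_union_left _ (mem_filter.2 ⟨hp, hc⟩)
  intro zs
  induction zs using Finset.induction_on with
  | empty => intro E hE; simpa using h.words E hE
  | @insert z zs _ ih =>
    intro E hE
    let E₁ : Finset ((ι → ℝ) × (ι → ℝ)) :=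
      E ∪ E.image (fun p => (σ p.1, σ p.2)) ∪ (insert z zs).image fun y => (y, σ (σ y))
    have hE₁ : ∀ p ∈ E₁, ∃ f, Word T f ∧ p.2 = f p.1 := by
      intro p hp
      simp only [E₁, mem_union] at hp
      rcases hp with (hp | hp) | hp
      · exact hE p hp
      · obtain ⟨q, hq, rfl⟩ := mem_image.1 hp
        obtain ⟨f, hf, he⟩ := hE q hq
        have : ∃ w, Word T w ∧ σ ∘ f = w ∘ σ := by
          clear he hq
          induction hf with
          | one => exact ⟨id, .one, rfl⟩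
          | @cons f t _ ht ih' =>
            obtain ⟨w, hw, hwe⟩ := ih'
            obtain ⟨w', hw', hwe'⟩ := hnorm t ht
            refine ⟨w' ∘ w, hw'.append hw, ?_⟩
            rw [← Function.comp_assoc, hwe', Function.comp_assoc, hwe, Function.comp_assoc]
        obtain ⟨w, hw, hwe⟩ := this
        exact ⟨w, hw, by simpa [he] using congrFun hwe q.1⟩
      · obtain ⟨y, -, rfl⟩ := mem_image.1 hp
        exact ⟨σ ∘ σ, hsq, rfl⟩
    have key : Ach (insert (z, σ z) (E ∪ zs.image fun y => (y, σ y))) := by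
      refine (ih E₁ hE₁).step hσ (fun p hp => ?_) ?_
      · rcases mem_union.1 hp with hp | hp
        · exact ⟨.rel _ _ (by simp [E₁, hp]),
            .rel _ _ (mem_union_left _ (mem_union_left _ (mem_union_right _ (mem_image_of_mem _ hp))))⟩
        · obtain ⟨y, hy, rfl⟩ := mem_image.1 hp
          refine ⟨.rel _ _ (mem_union_right _ (mem_image_of_mem _ hy)), ?_⟩
          refine .trans _ y _ (.symm _ _ (.rel _ _ (mem_union_right _ (mem_image_of_mem _ hy)))) ?_
          exact .rel _ _ (mem_union_left _ (mem_union_right _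
            (mem_image_of_mem _ (mem_insert_of_mem hy))))
      · exact .symm _ _ (.rel _ _ (mem_union_left _ (mem_union_right _
          (mem_image_of_mem _ (mem_insert_self _ _)))))
    simpa [image_insert, union_insert] using key

/-- A generator of two-power order over the earlier ones. -/
lemma Inv.extend_pow {T : Set ((ι → ℝ) → ι → ℝ)} (h : Inv T) (k : ℕ) :
    ∀ {σ : (ι → ℝ) → ι → ℝ}, Keeps σ → (∀ t ∈ T, ∃ w, Word T w ∧ σ ∘ t = w ∘ σ) →
      Word T σ^[2 ^ k] → Inv (insert σ T) := by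
  induction k with
  | zero =>
    intro σ hσ hn hw
    have hw : Word T σ := by simpa using hw
    exact h.extend hσ hn (hw.append hw)
  | succ k ih =>
    intro σ hσ hn hw
    have h2 : ∀ t ∈ T, ∃ w, Word T w ∧ (σ ∘ σ) ∘ t = w ∘ σ ∘ σ := by
      intro t ht
      obtain ⟨w, hw1, he⟩ := hn t ht
      have : ∃ w', Word T w' ∧ σ ∘ w = w' ∘ σ := by
        clear he
        induction hw1 with
        | one => exact ⟨id, .one, rfl⟩
        | @cons f u _ hu ih' =>
          obtain ⟨w1, hw1', he1⟩ := ih'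
          obtain ⟨w2, hw2, he2⟩ := hn u hu
          refine ⟨w2 ∘ w1, hw2.append hw1', ?_⟩
          rw [← Function.comp_assoc, he2, Function.comp_assoc, he1, Function.comp_assoc]
      obtain ⟨w', hw', he'⟩ := this
      refine ⟨w', hw', ?_⟩
      rw [Function.comp_assoc, he, ← Function.comp_assoc, he', Function.comp_assoc]
    have hk : (σ ∘ σ)^[2 ^ k] = σ^[2 ^ (k + 1)] := by
      rw [show σ ∘ σ = σ^[2] from rfl, ← Function.iterate_mul]
      congr 1
      ring
    have h' := ih (σ := σ ∘ σ) (fun x y => by simp [hσ (σ x) (σ y), hσ x y]) h2 (hk ▸ hw)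
    refine (h'.extend hσ (fun t ht => ?_) (.single (Set.mem_insert _ _))).mono
      (Set.insert_subset_insert (Set.subset_insert _ _))
    rcases Set.mem_insert_iff.1 ht with rfl | ht
    · exact ⟨σ ∘ σ, .single (Set.mem_insert _ _), rfl⟩
    · obtain ⟨w, hw, he⟩ := hn t ht
      exact ⟨w, hw.mono (Set.subset_insert _ _), he⟩

end Vale.Agent.P058.LRW
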