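import Mathlib

/-!
A homomorphism of the reals into the complex numbers that moves a number of `[5/8, 1)` by three.
-/

namespace Vale.Agent.P058.LRW

/-- An injective homomorphism on a subring over which the reals are algebraic extends. -/
lemma exists_extend_hom (A : Type) [CommRing A] [IsDomain A] [Algebra A ℝ]
    [Module.IsTorsionFree A ℝ] [Algebra.IsAlgebraic A ℝ] (g : A →+* ℂ)
    (hg : Function.Injective g) : ∃ σ : ℝ →+* ℂ, ∀ a, σ (algebraMap A ℝ a) = g a := by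
  let : Algebra A ℂ := g.toAlgebra
  have : Module.IsTorsionFree A ℂ := Module.isTorsionFree_iff_algebraMap_injective.2 hg
  exact ⟨(IsAlgClosed.lift : ℝ →ₐ[A] ℂ).toRingHom, fun a => (IsAlgClosed.lift : ℝ →ₐ[A] ℂ).commutes a⟩

/-- Some `w ∈ [5/8, 1)` goes to `w + 3` under a field homomorphism `ℝ → ℂ`. -/
theorem exists_moving_hom : ∃ w : ℝ, 5 / 8 ≤ w ∧ w < 1 ∧ ∃ σ : ℝ →+* ℂ, σ w = (w : ℂ) + 3 := by
  classical
  obtain ⟨s, hs⟩ := exists_isTranscendenceBasis ℚ ℝ
  have hne : Nonempty s := by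
    by_contra hcon
    rw [not_nonempty_iff] at hcon
    have halg : Algebra.IsAlgebraic ℚ ℝ := hs.isEmpty_iff_isAlgebraic.1 hcon
    have h1 : IsAlgebraic ℚ (liouvilleNumber 2) := halg.isAlgebraic _
    exact transcendental_liouvilleNumber le_rfl (by
      simpa using (IsFractionRing.isAlgebraic_iff ℤ ℚ ℝ).2 h1)
  obtain ⟨i₀⟩ := hne
  let A := Algebra.adjoin ℚ (Set.range ((↑) : s → ℝ))
  let sh : ℤ → MvPolynomial s ℚ →ₐ[ℚ] MvPolynomial s ℚ := fun m =>
    MvPolynomial.aeval fun i => MvPolynomial.X i + MvPolynomial.C (if i = i₀ then (m : ℚ) else 0)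
  have hinv : (sh (-12)).comp (sh 12) = AlgHom.id ℚ _ :=
    MvPolynomial.algHom_ext fun i => by by_cases h : i = i₀ <;> simp [sh, h]
  let g : A →+* ℂ := (Complex.ofRealHom.comp
    ((MvPolynomial.aeval ((↑) : s → ℝ)).comp (sh 12)).toRingHom).comp
    hs.1.aevalEquiv.symm.toRingEquiv.toRingHom
  have hg : Function.Injective g := by
    intro x y hxy
    have h1 := Complex.ofReal_injective hxy
    have h2 := congrArg (sh (-12)) (hs.1 h1)
    change ((sh (-12)).comp (sh 12)) (hs.1.aevalEquiv.symm x) =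
      ((sh (-12)).comp (sh 12)) (hs.1.aevalEquiv.symm y) at h2
    rw [hinv] at h2
    exact hs.1.aevalEquiv.symm.injective h2
  have : Algebra.IsAlgebraic A ℝ := hs.isAlgebraic
  obtain ⟨L, hL⟩ := exists_extend_hom A g hg
  have hi : L (i₀ : ℝ) = ((i₀ : ℝ) : ℂ) + 12 := by
    have h0 : ((i₀ : ℝ)) = algebraMap A ℝ (hs.1.aevalEquiv (MvPolynomial.X i₀)) := by
      rw [hs.1.algebraMap_aevalEquiv, MvPolynomial.aeval_X]
    conv_lhs => rw [h0, hL]
    simp [g, sh]
  set n : ℤ := ⌊(i₀ : ℝ)⌋ with hn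
  have hf1 : (n : ℝ) ≤ (i₀ : ℝ) := Int.floor_le _
  have hf2 : (i₀ : ℝ) < n + 1 := Int.lt_floor_add_one _
  refine ⟨5 / 8 + ((i₀ : ℝ) - n) / 4, by linarith, by linarith, L, ?_⟩
  simp only [map_add, map_div₀, map_sub, map_ofNat, map_intCast, hi]
  push_cast
  ring

end Vale.Agent.P058.LRW
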