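import Mathlib
import Vale.Agent.P058.LRW.Hom

/-!
Two rectangles on the unit circle that are contained in no finite transitive set.
-/

namespace Vale.Agent.P058.LRW

open Finset
open scoped RealInnerProductSpace

/-- The sign of a Boolean. -/
def sgn (b : Bool) : ℝ := if b then 1 else -1

/-- First half side: `√w` for the first rectangle, `1/2` for the second. -/
noncomputable def sideX (w : ℝ) (b : Bool) : ℝ := if b then Real.sqrt w else 1 / 2

/-- Second half side: `√(1-w)` for the first rectangle, `√(3/4)` for the second. -/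
noncomputable def sideY (w : ℝ) (b : Bool) : ℝ :=
  if b then Real.sqrt (1 - w) else Real.sqrt (3 / 4)

/-- The eight points `(±√w, ±√(1-w))` and `(±1/2, ±√(3/4))`. -/
noncomputable def pnt (w : ℝ) (i : Bool × Bool × Bool) : EuclideanSpace ℝ (Fin 2) :=
  !₂[sgn i.2.1 * sideX w i.1, sgn i.2.2 * sideY w i.1]

lemma sgn_true : sgn true = 1 := rfl

lemma sgn_false : sgn false = -1 := rfl

/-- Inner products of affine differences are preserved by congruence. -/
lemma inner_comb_general {ι E F : Type*} [Fintype ι] [NormedAddCommGroup E] [InnerProductSpace ℝ E]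
    [NormedAddCommGroup F] [InnerProductSpace ℝ F] {q : ι → E} {p : ι → F}
    (hd : ∀ i j, dist (q i) (q j) = dist (p i) (p j)) {w w' : ι → ℝ}
    (hw : ∑ i, w i = 0) (hw' : ∑ i, w' i = 0) :
    ⟪∑ i, w i • q i, ∑ i, w' i • q i⟫ = ⟪∑ i, w i • p i, ∑ i, w' i • p i⟫ := by
  rw [inner_sum_smul_sum_smul_of_sum_eq_zero q hw q hw',
    inner_sum_smul_sum_smul_of_sum_eq_zero p hw p hw']
  simp only [← dist_eq_norm, hd]

/-- Every congruent copy is an isometric affine image. -/
lemma exists_frame_rect {w : ℝ} (h0 : 0 < w) (h1 : w < 1) {n : ℕ}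
    {q : Bool × Bool × Bool → EuclideanSpace ℝ (Fin n)}
    (hd : ∀ i j, dist (q i) (q j) = dist (pnt w i) (pnt w j)) :
    ∃ a u v : EuclideanSpace ℝ (Fin n),
      (∀ i, q i = a + (sgn i.2.1 * sideX w i.1) • u + (sgn i.2.2 * sideY w i.1) • v) ∧
      ∑ d, u d ^ 2 = 1 ∧ ∑ d, v d ^ 2 = 1 := by
  classical
  have hc : Real.sqrt w ≠ 0 := (Real.sqrt_pos.2 h0).ne'
  have hs : Real.sqrt (1 - w) ≠ 0 := (Real.sqrt_pos.2 (by linarith)).ne'
  set p₁ : Bool × Bool × Bool := (true, true, true)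
  set p₂ : Bool × Bool × Bool := (true, false, true)
  set p₃ : Bool × Bool × Bool := (true, true, false)
  set p₄ : Bool × Bool × Bool := (true, false, false)
  let wu : Bool × Bool × Bool → ℝ := fun j =>
    (1 / (2 * Real.sqrt w)) * ((if j = p₁ then 1 else 0) - (if j = p₂ then 1 else 0))
  let wv : Bool × Bool × Bool → ℝ := fun j =>
    (1 / (2 * Real.sqrt (1 - w))) * ((if j = p₁ then 1 else 0) - (if j = p₃ then 1 else 0))
  have hwu : ∑ j, wu j = 0 := by simp [wu, ← mul_sum, sum_sub_distrib]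
  have hwv : ∑ j, wv j = 0 := by simp [wv, ← mul_sum, sum_sub_distrib]
  set u := ∑ j, wu j • q j with hu
  set v := ∑ j, wv j • q j with hv
  have epu : ∑ j, wu j • pnt w j = !₂[1, 0] := by
    simp only [wu, mul_smul, sub_smul, ite_smul, one_smul, zero_smul, ← smul_sum, sum_sub_distrib,
      sum_ite_eq', mem_univ, if_true]
    ext k; fin_cases k <;> simp [pnt, p₁, p₂, sgn, sideX, sideY] <;> field_simp; norm_num
  have epv : ∑ j, wv j • pnt w j = !₂[0, 1] := by
    simp only [wv, mul_smul, sub_smul, ite_smul, one_smul, zero_smul, ← smul_sum, sum_sub_distrib,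
      sum_ite_eq', mem_univ, if_true]
    ext k; fin_cases k <;> simp [pnt, p₁, p₃, sgn, sideX, sideY] <;> field_simp; norm_num
  refine ⟨(1 / 2 : ℝ) • (q p₁ + q p₄), u, v, fun i => ?_, ?_, ?_⟩
  · let x := sgn i.2.1 * sideX w i.1
    let y := sgn i.2.2 * sideY w i.1
    let c : Bool × Bool × Bool → ℝ := fun j =>
      (if j = i then 1 else 0) - (1 / 2) * ((if j = p₁ then 1 else 0) + (if j = p₄ then 1 else 0))
        - x * wu j - y * wv j
    have hcs : ∑ j, c j = 0 := by
      simp only [c, sum_sub_distrib, sum_add_distrib, ← mul_sum, sum_ite_eq', mem_univ, if_true,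
        hwu, hwv]
      norm_num
    have he : ∑ j, c j • q j = q i - (1 / 2 : ℝ) • (q p₁ + q p₄) - x • u - y • v := by
      simp only [c, sub_smul, mul_smul, add_smul, sum_sub_distrib, sum_add_distrib, ← smul_sum,
        ite_smul, one_smul, zero_smul, sum_ite_eq', mem_univ, if_true, ← hu, ← hv]
    have he' : ∑ j, c j • pnt w j = 0 := by
      simp only [c, sub_smul, mul_smul, add_smul, sum_sub_distrib, sum_add_distrib, ← smul_sum,
        ite_smul, one_smul, zero_smul, sum_ite_eq', mem_univ, if_true, epu, epv]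
      ext k
      fin_cases k <;> simp [pnt, x, y, p₁, p₄, sgn_true, sgn_false]
    have h0 := inner_comb_general hd hcs hcs
    rw [he, he', inner_zero_left, inner_self_eq_zero, sub_sub, sub_sub, sub_eq_zero] at h0
    rw [h0, add_assoc]
  · have h0 := inner_comb_general hd hwu hwu
    rw [← hu, epu, real_inner_self_eq_norm_sq, EuclideanSpace.real_norm_sq_eq] at h0
    rw [h0]
    simp [EuclideanSpace.norm_eq, Fin.sum_univ_two]
  · have h0 := inner_comb_general hd hwv hwv
    rw [← hv, epv, real_inner_self_eq_norm_sq, EuclideanSpace.real_norm_sq_eq] at h0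
    rw [h0]
    simp [EuclideanSpace.norm_eq, Fin.sum_univ_two]

/-- The sum of the squared moduli of the moved coordinates. -/
noncomputable def modSq (σ : ℝ →+* ℂ) {n : ℕ} (x : EuclideanSpace ℝ (Fin n)) : ℝ :=
  ∑ d, Complex.normSq (σ (x d))

/-- On every copy the first rectangle outweighs the second. -/
lemma modSq_gap {w : ℝ} (h0 : 5 / 8 ≤ w) (h1 : w < 1) {σ : ℝ →+* ℂ} (hσ : σ w = (w : ℂ) + 3)
    {n : ℕ} {q : Bool × Bool × Bool → EuclideanSpace ℝ (Fin n)}
    (hd : ∀ i j, dist (q i) (q j) = dist (pnt w i) (pnt w j)) :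
    0 < ∑ i, sgn i.1 * modSq σ (q i) := by
  obtain ⟨a, u, v, hq, huu, -⟩ := exists_frame_rect (by linarith) h1 hd
  set N := Complex.normSq with hN
  set cX := N (σ (sideX w true)) - N (σ (sideX w false)) with hcX
  set cY := N (σ (sideY w true)) - N (σ (sideY w false)) with hcY
  have key : ∀ d, ∑ i, sgn i.1 * N (σ (q i d)) = 4 * (cX * N (σ (u d)) + cY * N (σ (v d))) := by
    intro d
    simp only [hq, hcX, hcY, hN, Fintype.sum_prod_type, Fintype.sum_bool]
    simp [sgn, Complex.normSq_apply, Complex.mul_re, Complex.mul_im]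
    ring
  have hsum : ∑ i, sgn i.1 * modSq σ (q i)
      = 4 * (cX * ∑ d, N (σ (u d)) + cY * ∑ d, N (σ (v d))) := by
    simp only [modSq, mul_sum, ← hN]
    rw [sum_comm, sum_congr rfl fun d _ => key d, ← sum_add_distrib, mul_sum]
  have hnorm : ∀ t : ℝ, 0 ≤ t → N (σ (Real.sqrt t)) = ‖σ t‖ := by
    intro t ht
    rw [hN, Complex.normSq_eq_norm_sq, ← norm_pow, ← map_pow, Real.sq_sqrt ht]
  have hcX0 : 0 < cX := by
    have e1 : ‖σ w‖ = w + 3 := by
      rw [hσ]
      have : ((w : ℂ) + 3) = ((w + 3 : ℝ) : ℂ) := by push_cast; ring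
      rw [this, Complex.norm_real, Real.norm_eq_abs, abs_of_pos (by linarith)]
    simp only [hcX, sideX, if_true, Bool.false_eq_true, if_false, hnorm w (by linarith), e1]
    have e2 : N (σ (1 / 2)) = 1 / 4 := by
      rw [map_div₀, map_one, map_ofNat, hN, map_div₀, map_one, Complex.normSq_ofNat]
      norm_num
    rw [e2]
    linarith
  have hcY0 : 0 < cY := by
    have e1 : ‖σ (1 - w)‖ = w + 2 := by
      rw [map_sub, map_one, hσ]
      have : (1 : ℂ) - ((w : ℂ) + 3) = (((-(w + 2)) : ℝ) : ℂ) := by push_cast; ring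
      rw [this, Complex.norm_real, Real.norm_eq_abs, abs_neg, abs_of_pos (by linarith)]
    simp only [hcY, sideY, if_true, Bool.false_eq_true, if_false, hnorm (1 - w) (by linarith), e1,
      hnorm (3 / 4) (by norm_num)]
    rw [map_div₀, map_ofNat, map_ofNat, norm_div, RCLike.norm_ofNat, RCLike.norm_ofNat]
    linarith
  have hu1 : 1 ≤ ∑ d, N (σ (u d)) := by
    calc (1 : ℝ) = ‖∑ d, σ (u d) ^ 2‖ := by
          simp only [← map_pow, ← map_sum, huu, map_one, norm_one]
      _ ≤ ∑ d, ‖σ (u d) ^ 2‖ := norm_sum_le _ _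
      _ = ∑ d, N (σ (u d)) := by simp [hN, Complex.normSq_eq_norm_sq, norm_pow]
  have hv0 : 0 ≤ cY * ∑ d, N (σ (v d)) :=
    mul_nonneg hcY0.le (sum_nonneg fun d _ => Complex.normSq_nonneg _)
  rw [hsum]
  nlinarith

/-- No finite set with a transitive group of isometries contains a congruent copy. -/
theorem not_subtransitive {w : ℝ} (h0 : 5 / 8 ≤ w) (h1 : w < 1) {σ : ℝ →+* ℂ}
    (hσ : σ w = (w : ℂ) + 3) {n : ℕ} (X : Finset (EuclideanSpace ℝ (Fin n)))
    (hX : ∀ x ∈ X, ∀ y ∈ X, ∃ g : EuclideanSpace ℝ (Fin n) ≃ᵢ EuclideanSpace ℝ (Fin n),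
      g '' (X : Set (EuclideanSpace ℝ (Fin n))) = X ∧ g x = y)
    (q : Bool × Bool × Bool → EuclideanSpace ℝ (Fin n))
    (hd : ∀ i j, dist (q i) (q j) = dist (pnt w i) (pnt w j)) : ¬ ∀ i, q i ∈ X := by
  classical
  intro hq
  let Γ : Finset (Equiv.Perm X) := univ.filter fun π =>
    ∃ g : EuclideanSpace ℝ (Fin n) ≃ᵢ EuclideanSpace ℝ (Fin n), ∀ x : X, (π x : _) = g x
  let h : X → ℝ := fun x => ∑ π ∈ Γ, modSq σ (π x : EuclideanSpace ℝ (Fin n))
  have hconst : ∀ x y : X, h x = h y := by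
    intro x y
    obtain ⟨g, hg, hgx⟩ := hX x x.2 y y.2
    have hmem : ∀ z : X, g z ∈ X := fun z => by
      have : g z ∈ g '' (X : Set (EuclideanSpace ℝ (Fin n))) := ⟨z, z.2, rfl⟩
      rw [hg] at this
      exact this
    let π₀ : Equiv.Perm X := Equiv.ofBijective (fun z => ⟨g z, hmem z⟩)
      (Finite.injective_iff_bijective.1 fun a b hab =>
        Subtype.ext (g.injective (congrArg Subtype.val hab)))
    have hπ : ∀ z : X, (π₀ z : EuclideanSpace ℝ (Fin n)) = g z := fun z => rfl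
    have hπx : π₀ x = y := Subtype.ext (by rw [hπ, hgx])
    symm
    refine sum_bij (fun π _ => π * π₀) ?_ ?_ ?_ ?_
    · intro π hπ'
      obtain ⟨g', hg'⟩ := (mem_filter.1 hπ').2
      exact mem_filter.2 ⟨mem_univ _, g.trans g', fun z => by simp [hg', hπ]⟩
    · intro a _ b _ hab
      exact mul_right_cancel hab
    · intro π hπ'
      obtain ⟨g', hg'⟩ := (mem_filter.1 hπ').2
      refine ⟨π * π₀⁻¹, mem_filter.2 ⟨mem_univ _, g.symm.trans g', fun z => ?_⟩, by simp⟩
      have : g.symm z = (π₀⁻¹ z : EuclideanSpace ℝ (Fin n)) := by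
        rw [g.symm_apply_eq, ← hπ]; simp
      simp [hg', this]
    · intro π _
      simp [hπx]
  have hzero : ∑ i, sgn i.1 * h ⟨q i, hq i⟩ = 0 := by
    have : ∀ i, h ⟨q i, hq i⟩ = h ⟨q (true, true, true), hq _⟩ := fun i => hconst _ _
    simp only [this, ← sum_mul, Fintype.sum_prod_type, Fintype.sum_bool, sgn]
    norm_num
  have hpos : 0 < ∑ i, sgn i.1 * h ⟨q i, hq i⟩ := by
    simp only [h, mul_sum]
    rw [sum_comm]
    refine sum_pos (fun π hπ => ?_) ⟨1, mem_filter.2 ⟨mem_univ _, IsometryEquiv.refl _, fun _ => rfl⟩⟩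
    obtain ⟨g, hg⟩ := (mem_filter.1 hπ).2
    refine modSq_gap h0 h1 hσ (q := fun i => (π ⟨q i, hq i⟩ : EuclideanSpace ℝ (Fin n))) fun i j => ?_
    simp only [hg, g.dist_eq, hd]
  linarith

end Vale.Agent.P058.LRW
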