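import Mathlib
import Vale.Agent.P058.LRW.Geometry

/-!
Axis columns with equal ends and an arbitrarily small negative part.

A column is a pair `(p, q)` with one entry zero; it starts at `√w p + √(1-w) q` and ends at
`(1/2) p + √(3/4) q`.
-/

namespace Vale.Agent.P058.LRW

open Finset

/-- Start of a column: the value on the first rectangle. -/
noncomputable def colSt (w : ℝ) (x : ℝ × ℝ) : ℝ := sideX w true * x.1 + sideY w true * x.2

/-- End of a column: the value on the second rectangle. -/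
noncomputable def colEn (w : ℝ) (x : ℝ × ℝ) : ℝ := sideX w false * x.1 + sideY w false * x.2

/-- Equal value distributions give a permutation. -/
lemma exists_perm_of_sum_eq {X : Type} [Fintype X] {l r : X → ℝ}
    (h : ∀ F : ℝ → ℝ, ∑ x, F (l x) = ∑ x, F (r x)) :
    ∃ e : Equiv.Perm X, ∀ x, r (e x) = l x := by
  classical
  have hc : ∀ t : ℝ, Fintype.card {x // l x = t} = Fintype.card {x // r x = t} := by
    intro t
    have h1 := h fun y => if y = t then 1 else 0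
    simp only [sum_boole, Nat.cast_inj] at h1
    simpa [Fintype.card_subtype] using h1
  refine ⟨Equiv.ofFiberEquiv fun t => Fintype.equivOfCardEq (hc t), fun x => ?_⟩
  exact Equiv.ofFiberEquiv_map (fun t => Fintype.equivOfCardEq (hc t)) x

/-- Abel summation for the decreasing counts. -/
lemma abel_down : ∀ (L : ℕ) (H : ℕ → ℝ), ∑ j ∈ range L, 2 ^ (L - 1 - j) * H (j + 1)
    = ∑ j ∈ range L, ((2 : ℝ) ^ (L - j) - 1) * (H (j + 1) - H j) + ((2 : ℝ) ^ L - 1) * H 0 := by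
  intro L
  induction L with
  | zero => intro H; simp
  | succ L ih =>
    intro H
    rw [sum_range_succ', sum_range_succ']
    have h1 := ih fun j => H (j + 1)
    have e2 : ∀ j, L - 1 - j = L - (j + 1) := fun j => by omega
    simp only [e2] at h1
    simp only [Nat.sub_zero, Nat.add_sub_cancel, Nat.add_sub_add_right]
    rw [h1]
    ring

/-- Abel summation for the increasing counts. -/
lemma abel_up : ∀ (L : ℕ) (K : ℕ → ℝ), ∑ i ∈ range L, 2 ^ i * K i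
    = -∑ i ∈ range L, ((2 : ℝ) ^ (i + 1) - 1) * (K (i + 1) - K i) + ((2 : ℝ) ^ L - 1) * K L := by
  intro L K
  induction L with
  | zero => simp
  | succ L ih =>
    rw [sum_range_succ, sum_range_succ, ih]
    ring

/-- The weighted square identity on the box. -/
lemma box_identity (L : ℕ) (G : ℕ → ℕ → ℝ) :
    ∑ i ∈ range L, ∑ j ∈ range L,
        ((2 : ℝ) ^ (i + 1) - 1) * 2 ^ (L - 1 - j) * (G (i + 1) (j + 1) - G i (j + 1))
      + ∑ i ∈ range L, ∑ j ∈ range L,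
        2 ^ i * ((2 : ℝ) ^ (L - j) - 1) * (G i (j + 1) - G i j)
    = ∑ i ∈ range L, ((2 : ℝ) ^ (i + 1) - 1) * (2 ^ L - 1) * (G (i + 1) 0 - G i 0)
      + ∑ j ∈ range L, (2 ^ L - 1) * ((2 : ℝ) ^ (L - j) - 1) * (G L (j + 1) - G L j) := by
  have h1 : ∑ i ∈ range L, ∑ j ∈ range L,
        ((2 : ℝ) ^ (i + 1) - 1) * 2 ^ (L - 1 - j) * (G (i + 1) (j + 1) - G i (j + 1))
      = ∑ i ∈ range L, ∑ j ∈ range L, ((2 : ℝ) ^ (i + 1) - 1) * ((2 : ℝ) ^ (L - j) - 1)
          * (G (i + 1) (j + 1) - G i (j + 1) - (G (i + 1) j - G i j))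
        + ∑ i ∈ range L, ((2 : ℝ) ^ (i + 1) - 1) * (2 ^ L - 1) * (G (i + 1) 0 - G i 0) := by
    rw [← sum_add_distrib]
    refine sum_congr rfl fun i _ => ?_
    simp only [mul_assoc, ← mul_sum, ← mul_add]
    exact congrArg _ (abel_down L fun j => G (i + 1) j - G i j)
  have h2 : ∑ i ∈ range L, ∑ j ∈ range L,
        2 ^ i * ((2 : ℝ) ^ (L - j) - 1) * (G i (j + 1) - G i j)
      = -∑ i ∈ range L, ∑ j ∈ range L, ((2 : ℝ) ^ (i + 1) - 1) * ((2 : ℝ) ^ (L - j) - 1)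
          * (G (i + 1) (j + 1) - G i (j + 1) - (G (i + 1) j - G i j))
        + ∑ j ∈ range L, (2 ^ L - 1) * ((2 : ℝ) ^ (L - j) - 1) * (G L (j + 1) - G L j) := by
    rw [sum_comm]
    conv_rhs => rw [sum_comm (s := range L) (t := range L), ← sum_neg_distrib, ← sum_add_distrib]
    refine sum_congr rfl fun j _ => ?_
    have := abel_up L fun i => ((2 : ℝ) ^ (L - j) - 1) * (G i (j + 1) - G i j)
    rw [sum_congr rfl fun i _ => (mul_assoc _ _ _), this, mul_assoc]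
    refine congrArg (· + _) (congrArg Neg.neg (sum_congr rfl fun i _ => ?_))
    ring
  rw [h1, h2]
  ring

/-- The bottom row is a small part of the box. -/
lemma box_ratio_u (L : ℕ) (s : ℝ) {α β : ℝ} (hτ : 2 ≤ β ^ 2) :
    (L : ℝ) * ∑ i ∈ range L, ((2 : ℝ) ^ (i + 1) - 1) * (2 ^ L - 1) * (s * α ^ i * β ^ 0) ^ 2
      ≤ ∑ i ∈ range L, ∑ j ∈ range L,
        ((2 : ℝ) ^ (i + 1) - 1) * 2 ^ (L - 1 - j) * (s * α ^ i * β ^ (j + 1)) ^ 2 := by
  rw [mul_sum]
  refine sum_le_sum fun i _ => ?_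
  have h2 : (0 : ℝ) ≤ 2 ^ (i + 1) - 1 := sub_nonneg.2 (one_le_pow₀ (by norm_num))
  have key : ∀ j ∈ range L, (2 : ℝ) ^ L - 1 ≤ 2 ^ (L - 1 - j) * (β ^ 2) ^ (j + 1) := by
    intro j hj
    have := mem_range.1 hj
    calc (2 : ℝ) ^ L - 1 ≤ 2 ^ L := sub_le_self _ zero_le_one
      _ = 2 ^ (L - 1 - j) * 2 ^ (j + 1) := by rw [← pow_add]; congr 1; omega
      _ ≤ _ := by gcongr
  calc (L : ℝ) * (((2 : ℝ) ^ (i + 1) - 1) * (2 ^ L - 1) * (s * α ^ i * β ^ 0) ^ 2)
      = ∑ j ∈ range L, ((2 : ℝ) ^ (i + 1) - 1) * (s * α ^ i) ^ 2 * (2 ^ L - 1) := by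
        rw [sum_const, card_range, nsmul_eq_mul]; ring
    _ ≤ ∑ j ∈ range L, ((2 : ℝ) ^ (i + 1) - 1) * (s * α ^ i) ^ 2 *
          (2 ^ (L - 1 - j) * (β ^ 2) ^ (j + 1)) :=
        sum_le_sum fun j hj =>
          mul_le_mul_of_nonneg_left (key j hj) (mul_nonneg h2 (sq_nonneg _))
    _ = _ := sum_congr rfl fun j _ => by ring

/-- The last column is a small part of the box. -/
lemma box_ratio_v (L : ℕ) (c β : ℝ) {α : ℝ} (hρ : 2 * α ^ 2 ≤ 1) :
    (L : ℝ) * ∑ j ∈ range L, (2 ^ L - 1) * ((2 : ℝ) ^ (L - j) - 1) * (c * α ^ L * β ^ j) ^ 2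
      ≤ ∑ i ∈ range L, ∑ j ∈ range L,
        2 ^ i * ((2 : ℝ) ^ (L - j) - 1) * (c * α ^ i * β ^ j) ^ 2 := by
  rw [sum_comm (s := range L) (t := range L), mul_sum]
  refine sum_le_sum fun j _ => ?_
  have h2 : (0 : ℝ) ≤ 2 ^ (L - j) - 1 := sub_nonneg.2 (one_le_pow₀ (by norm_num))
  have h3 : (0 : ℝ) ≤ ((2 : ℝ) ^ (L - j) - 1) * (c * β ^ j) ^ 2 := mul_nonneg h2 (sq_nonneg _)
  have key : ∀ i ∈ range L, ((2 : ℝ) ^ L - 1) * (α ^ 2) ^ L ≤ (2 * α ^ 2) ^ i := by
    intro i hi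
    calc ((2 : ℝ) ^ L - 1) * (α ^ 2) ^ L ≤ 2 ^ L * (α ^ 2) ^ L :=
          mul_le_mul_of_nonneg_right (sub_le_self _ zero_le_one) (by positivity)
      _ = (2 * α ^ 2) ^ L := (mul_pow _ _ _).symm
      _ ≤ _ := pow_le_pow_of_le_one (by positivity) hρ (mem_range.1 hi).le
  calc (L : ℝ) * ((2 ^ L - 1) * ((2 : ℝ) ^ (L - j) - 1) * (c * α ^ L * β ^ j) ^ 2)
      = ∑ i ∈ range L, ((2 : ℝ) ^ (L - j) - 1) * (c * β ^ j) ^ 2 *
          ((2 ^ L - 1) * (α ^ 2) ^ L) := by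
        rw [sum_const, card_range, nsmul_eq_mul, ← pow_mul, mul_comm 2 L, pow_mul]; ring
    _ ≤ ∑ i ∈ range L, ((2 : ℝ) ^ (L - j) - 1) * (c * β ^ j) ^ 2 * (2 * α ^ 2) ^ i :=
        sum_le_sum fun i hi => mul_le_mul_of_nonneg_left (key i hi) h3
    _ = _ := sum_congr rfl fun i _ => by
        rw [mul_pow 2 (α ^ 2), ← pow_mul, mul_comm 2 i, pow_mul]; ring

/-- Balancing the two masses keeps the negative part small. -/
lemma balance {D Pu Pv Nu Nv : ℝ} (hd : Pu - Nu = Pv - Nv) (hU : 0 < Nu)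
    (hu : (D + 1) * Nu ≤ Pu) (hv : (D + 1) * Nv ≤ Pv) :
    D * (Nu + max (-(Pu - Pv)) 0) < Pu + max (-(Pu - Pv)) 0 := by
  rcases le_total (Pu - Pv) 0 with h' | h'
  · rw [max_eq_left (by linarith), show Nu + -(Pu - Pv) = Nv by linarith]
    linarith
  · rw [max_eq_right (by linarith), add_zero, add_zero]
    linarith

/-- The bottom row has positive mass. -/
lemma bottom_pos (D : ℕ) {s : ℝ} (hs : s ≠ 0) (α β : ℝ) :
    0 < ∑ i ∈ range (D + 1), ((2 : ℝ) ^ (i + 1) - 1) * (2 ^ (D + 1) - 1) * (s * α ^ i * β ^ 0) ^ 2 := by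
  have hL : (1 : ℝ) < 2 ^ (D + 1) := one_lt_pow₀ (by norm_num) (Nat.succ_ne_zero D)
  refine sum_pos' (fun i _ => ?_) ⟨0, mem_range.2 (Nat.succ_pos D), ?_⟩
  · have : (1 : ℝ) ≤ 2 ^ (i + 1) := one_le_pow₀ (by norm_num)
    exact mul_nonneg (mul_nonneg (sub_nonneg.2 this) (sub_nonneg.2 hL.le)) (sq_nonneg _)
  · simp only [zero_add, pow_one, pow_zero, mul_one]
    exact mul_pos (mul_pos (by norm_num) (sub_pos.2 hL)) (pow_two_pos_of_ne_zero hs)

/-- The index of the positive columns. -/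
abbrev PosIdx (L : ℕ) : Type :=
  ((Σ ij : Fin L × Fin L, Fin ((2 ^ ((ij.1 : ℕ) + 1) - 1) * 2 ^ (L - 1 - (ij.2 : ℕ))))
    ⊕ Σ ij : Fin L × Fin L, Fin (2 ^ (ij.1 : ℕ) * (2 ^ (L - (ij.2 : ℕ)) - 1))) ⊕ Bool

/-- The index of the negative columns. -/
abbrev NegIdx (L : ℕ) : Type :=
  ((Σ i : Fin L, Fin ((2 ^ ((i : ℕ) + 1) - 1) * (2 ^ L - 1)))
    ⊕ Σ j : Fin L, Fin ((2 ^ L - 1) * (2 ^ (L - (j : ℕ)) - 1))) ⊕ Bool

/-- The A-column at `(i, j)`. -/
noncomputable def colA (w : ℝ) (i j : ℕ) : ℝ × ℝ :=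
  (sideY w true * (sideX w false / sideX w true) ^ i * (sideY w false / sideY w true) ^ j, 0)

/-- The B-column at `(i, j)`. -/
noncomputable def colB (w : ℝ) (i j : ℕ) : ℝ × ℝ :=
  (0, sideX w true * (sideX w false / sideX w true) ^ i * (sideY w false / sideY w true) ^ j)

/-- The two balancing columns. -/
noncomputable def colPad (a b : ℝ) (x : Bool) : ℝ × ℝ :=
  if x then (Real.sqrt a, 0) else (0, Real.sqrt b)

/-- The positive columns. -/
noncomputable def posCol (w : ℝ) (L : ℕ) (a b : ℝ) : PosIdx L → ℝ × ℝ :=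
  Sum.elim (Sum.elim (fun z => colA w z.1.1 (z.1.2 + 1)) (fun z => colB w z.1.1 z.1.2)) (colPad a b)

/-- The negative columns. -/
noncomputable def negCol (w : ℝ) (L : ℕ) (a b : ℝ) : NegIdx L → ℝ × ℝ :=
  Sum.elim (Sum.elim (fun z => colA w z.1 0) (fun z => colB w L z.1)) (colPad a b)

lemma cast_two_pow_sub_one (i : ℕ) : ((2 ^ i - 1 : ℕ) : ℝ) = 2 ^ i - 1 := by
  rw [Nat.cast_sub Nat.one_le_two_pow]; push_cast; rfl

lemma sum_posCol (w : ℝ) (L : ℕ) (a b : ℝ) (f : ℝ × ℝ → ℝ) : ∑ x, f (posCol w L a b x) =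
    ∑ i ∈ range L, ∑ j ∈ range L, ((2 : ℝ) ^ (i + 1) - 1) * 2 ^ (L - 1 - j) * f (colA w i (j + 1))
      + ∑ i ∈ range L, ∑ j ∈ range L, 2 ^ i * ((2 : ℝ) ^ (L - j) - 1) * f (colB w i j)
      + (f (Real.sqrt a, 0) + f (0, Real.sqrt b)) := by
  simp only [posCol, Fintype.sum_sum_type, Sum.elim_inl, Sum.elim_inr, Fintype.sum_sigma, sum_const,
    card_univ, Fintype.card_fin, nsmul_eq_mul, Fintype.sum_prod_type, Fintype.sum_bool, colPad,
    if_true, Bool.false_eq_true, if_false, Nat.cast_mul, cast_two_pow_sub_one, Nat.cast_pow,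
    Nat.cast_ofNat]
  simp only [sum_range]

lemma sum_negCol (w : ℝ) (L : ℕ) (a b : ℝ) (f : ℝ × ℝ → ℝ) : ∑ x, f (negCol w L a b x) =
    ∑ i ∈ range L, ((2 : ℝ) ^ (i + 1) - 1) * (2 ^ L - 1) * f (colA w i 0)
      + ∑ j ∈ range L, (2 ^ L - 1) * ((2 : ℝ) ^ (L - j) - 1) * f (colB w L j)
      + (f (Real.sqrt a, 0) + f (0, Real.sqrt b)) := by
  simp only [negCol, Fintype.sum_sum_type, Sum.elim_inl, Sum.elim_inr, Fintype.sum_sigma, sum_const,
    card_univ, Fintype.card_fin, nsmul_eq_mul, Fintype.sum_bool, colPad,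
    if_true, Bool.false_eq_true, if_false, Nat.cast_mul, cast_two_pow_sub_one]
  simp only [sum_range]

/-- Ends of the positive and starts of the negative columns match the other two lists. -/
lemma exists_col_perm (w : ℝ) (L : ℕ) (a b : ℝ) (hc : sideX w true ≠ 0) (hs : sideY w true ≠ 0) :
    ∃ e : Equiv.Perm (PosIdx L ⊕ NegIdx L), ∀ x,
      Sum.elim (colSt w ∘ posCol w L a b) (colEn w ∘ negCol w L a b) (e x)
        = Sum.elim (colEn w ∘ posCol w L a b) (colSt w ∘ negCol w L a b) x := by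
  refine exists_perm_of_sum_eq fun F => ?_
  have hsplit : ∀ g : PosIdx L ⊕ NegIdx L → ℝ,
      ∑ x, g x = ∑ x, g (Sum.inl x) + ∑ x, g (Sum.inr x) := fun g => Fintype.sum_sum_type g
  rw [hsplit, hsplit]
  simp only [Sum.elim_inl, Sum.elim_inr, Function.comp_apply]
  rw [sum_posCol w L a b fun x => F (colEn w x), sum_negCol w L a b fun x => F (colSt w x),
    sum_posCol w L a b fun x => F (colSt w x), sum_negCol w L a b fun x => F (colEn w x)]
  set c := sideX w true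
  set s := sideY w true
  set α := sideX w false / c with hα
  set β := sideY w false / s with hβ
  have hh : sideX w false = α * c := (div_mul_cancel₀ _ hc).symm
  have ht : sideY w false = β * s := (div_mul_cancel₀ _ hs).symm
  have a1 : ∀ i j, colSt w (colA w i j) = s * c * α ^ i * β ^ j := fun i j => by
    simp only [colSt, colA]; ring
  have a2 : ∀ i j, colEn w (colA w i j) = s * c * α ^ (i + 1) * β ^ j := fun i j => by
    simp only [colEn, colA, hα, hβ, pow_succ]; field_simp; simp only [c, s]; ring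
  have b1 : ∀ i j, colSt w (colB w i j) = s * c * α ^ i * β ^ j := fun i j => by
    simp only [colSt, colB]; ring
  have b2 : ∀ i j, colEn w (colB w i j) = s * c * α ^ i * β ^ (j + 1) := fun i j => by
    simp only [colEn, colB, hα, hβ, pow_succ]; field_simp; simp only [c, s]; ring
  simp only [a1, a2, b1, b2]
  have hF := box_identity L fun i j => F (s * c * α ^ i * β ^ j)
  simp only [mul_sub, sub_mul, sum_sub_distrib, mul_one, one_mul] at hF ⊢
  linarith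

/-- Columns with equal ends, both masses equal, negative part below `1/D` of the positive part. -/
theorem exists_columns {w : ℝ} (h0 : 5 / 8 ≤ w) (h1 : w < 1) (D : ℕ) :
    ∃ (ιP ιN : Type) (_ : Fintype ιP) (_ : Fintype ιN) (cp : ιP → ℝ × ℝ) (cn : ιN → ℝ × ℝ)
      (e : Equiv.Perm (ιP ⊕ ιN)) (P N : ℝ),
      (∀ x, Sum.elim (colSt w ∘ cp) (colEn w ∘ cn) (e x)
        = Sum.elim (colEn w ∘ cp) (colSt w ∘ cn) x) ∧
      (∀ x, (cp x).1 = 0 ∨ (cp x).2 = 0) ∧ (∀ x, (cn x).1 = 0 ∨ (cn x).2 = 0) ∧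
      ∑ x, (cp x).1 ^ 2 = P ∧ ∑ x, (cp x).2 ^ 2 = P ∧
      ∑ x, (cn x).1 ^ 2 = N ∧ ∑ x, (cn x).2 ^ 2 = N ∧ 0 ≤ N ∧ (D : ℝ) * N < P := by
  set c := sideX w true with hc
  set s := sideY w true with hs
  set h := sideX w false with hh
  set t := sideY w false with ht
  have hc2 : c ^ 2 = w := by rw [hc]; exact Real.sq_sqrt (by linarith)
  have hs2 : s ^ 2 = 1 - w := by rw [hs]; exact Real.sq_sqrt (by linarith)
  have hh2 : h ^ 2 = 1 / 4 := by simp [hh, sideX]; norm_num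
  have ht2 : t ^ 2 = 3 / 4 := by rw [ht]; exact Real.sq_sqrt (by norm_num)
  have hc0 : c ≠ 0 := fun e => by rw [e] at hc2; nlinarith
  have hs0 : s ≠ 0 := fun e => by rw [e] at hs2; nlinarith
  have hh0 : h ≠ 0 := fun e => by rw [e] at hh2; norm_num at hh2
  have ht0 : t ≠ 0 := fun e => by rw [e] at ht2; norm_num at ht2
  set α := h / c with hα
  set β := t / s with hβ
  have hα2 : α ^ 2 = 1 / (4 * w) := by rw [hα, div_pow, hh2, hc2, div_div]
  have hβ2 : β ^ 2 = 3 / (4 * (1 - w)) := by rw [hβ, div_pow, ht2, hs2, div_div]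
  have hρ : 2 * α ^ 2 ≤ 1 := by
    rw [hα2, mul_one_div, div_le_one (by linarith)]; linarith
  have hτ : 2 ≤ β ^ 2 := by
    rw [hβ2, le_div_iff₀ (by linarith)]; linarith
  set L := D + 1 with hL
  set Pu := ∑ i ∈ range L, ∑ j ∈ range L,
    ((2 : ℝ) ^ (i + 1) - 1) * 2 ^ (L - 1 - j) * (s * α ^ i * β ^ (j + 1)) ^ 2 with hPu
  set Pv := ∑ i ∈ range L, ∑ j ∈ range L,
    2 ^ i * ((2 : ℝ) ^ (L - j) - 1) * (c * α ^ i * β ^ j) ^ 2 with hPv
  set Nu := ∑ i ∈ range L, ((2 : ℝ) ^ (i + 1) - 1) * (2 ^ L - 1) * (s * α ^ i * β ^ 0) ^ 2 with hNu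
  set Nv := ∑ j ∈ range L, (2 ^ L - 1) * ((2 : ℝ) ^ (L - j) - 1) * (c * α ^ L * β ^ j) ^ 2 with hNv
  let G : (ℝ → ℝ) → ℕ → ℕ → ℝ := fun F i j => F (s * c * α ^ i * β ^ j)
  have hbox := box_identity L (G fun y => y ^ 2)
  have eA : ∀ i j, G (fun y => y ^ 2) (i + 1) j - G (fun y => y ^ 2) i j
      = (1 / 4 - w) * (s * α ^ i * β ^ j) ^ 2 := by
    intro i j
    simp only [G, mul_pow, pow_succ α i, hc2]
    rw [hα2]
    field_simp
  have eB : ∀ i j, G (fun y => y ^ 2) i (j + 1) - G (fun y => y ^ 2) i j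
      = (w - 1 / 4) * (c * α ^ i * β ^ j) ^ 2 := by
    intro i j
    simp only [G, mul_pow, pow_succ β j, hs2]
    rw [hβ2]
    have : (1 : ℝ) - w ≠ 0 := by linarith
    field_simp
    ring
  simp only [eA, eB] at hbox
  have hdiff : Pu - Nu = Pv - Nv := by
    have : (1 / 4 - w) * (Pu - Nu - (Pv - Nv)) = 0 := by
      rw [mul_sub, mul_sub, mul_sub]
      simp only [hPu, hPv, hNu, hNv, mul_sum]
      simp only [mul_left_comm _ (1 / 4 - w), mul_left_comm _ (w - 1 / 4)] at hbox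
      simp only [show w - 1 / 4 = -(1 / 4 - w) by ring, neg_mul, sum_neg_distrib] at hbox
      linarith
    rcases mul_eq_zero.1 this with h' | h'
    · exfalso; linarith
    · linarith
  set a := max (-(Pu - Pv)) 0 with ha
  set b := max (Pu - Pv) 0 with hb
  have hab : Pu + a = Pv + b := by
    rcases le_total (Pu - Pv) 0 with h' | h'
    · rw [ha, hb, max_eq_left (by linarith), max_eq_right h']; ring
    · rw [ha, hb, max_eq_right (by linarith), max_eq_left h']; ring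
  obtain ⟨e, he⟩ := exists_col_perm w L a b hc0 hs0
  refine ⟨PosIdx L, NegIdx L, inferInstance, inferInstance, posCol w L a b, negCol w L a b, e, Pu + a, Nu + a, he,
    ?_, ?_, ?_, ?_, ?_, ?_, ?_, ?_⟩
  · rintro ((_ | _) | (_ | _)) <;> simp [posCol, colA, colB, colPad]
  · rintro ((_ | _) | (_ | _)) <;> simp [negCol, colA, colB, colPad]
  · rw [sum_posCol w L a b fun x => x.1 ^ 2]
    simp [colA, colB, ← hc, ← hs, ← hh, ← ht, ← hα, ← hβ, hPu, ha]
  · rw [sum_posCol w L a b fun x => x.2 ^ 2, hab]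
    simp [colA, colB, ← hc, ← hs, ← hh, ← ht, ← hα, ← hβ, hPv, hb]
  · rw [sum_negCol w L a b fun x => x.1 ^ 2]
    simp [colA, colB, ← hc, ← hs, ← hh, ← ht, ← hα, ← hβ, hNu, ha]
  · rw [sum_negCol w L a b fun x => x.2 ^ 2, show Nu + a = Nv + b by linarith]
    simp [colA, colB, ← hc, ← hs, ← hh, ← ht, ← hα, ← hβ, hNv, hb]
  · have : 0 ≤ Nu := (bottom_pos D hs0 α β).le
    linarith [le_max_right (-(Pu - Pv)) 0]
  · have hUpos : 0 < Nu := bottom_pos D hs0 α β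
    have huL : (L : ℝ) * Nu ≤ Pu := box_ratio_u L s hτ
    have hvL : (L : ℝ) * Nv ≤ Pv := box_ratio_v L c β hρ
    have hLD : (L : ℝ) = D + 1 := by simp [hL]
    rw [hLD] at huL hvL
    exact balance hdiff hUpos huL hvL

end Vale.Agent.P058.LRW
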