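import Mathlib
import Vale.Agent.P058.LRW.Achieve

/-!
Sign changes and coordinate permutations as generators.
-/

namespace Vale.Agent.P058.LRW

open Finset

variable {ι : Type} [Fintype ι]

set_option linter.unusedSectionVars false

/-- Change the sign of one coordinate. -/
def flipAt [DecidableEq ι] (i : ι) (x : ι → ℝ) : ι → ℝ := fun j => if j = i then -x j else x j

/-- Permute the coordinates. -/
def permAct (e : Equiv.Perm ι) (x : ι → ℝ) : ι → ℝ := fun j => x (e j)

lemma keeps_flipAt [DecidableEq ι] (i : ι) : Keeps (flipAt i) := fun x y => by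
  refine sum_congr rfl fun j _ => ?_
  simp only [flipAt]
  split <;> ring

lemma keeps_permAct (e : Equiv.Perm ι) : Keeps (permAct e) := fun x y =>
  Equiv.sum_comp e fun j => (x j - y j) ^ 2

lemma permAct_iterate (e : Equiv.Perm ι) (n : ℕ) : (permAct e)^[n] = permAct (e ^ n) := by
  induction n with
  | zero => rfl
  | succ n ih =>
    funext x j
    rw [Function.iterate_succ', Function.comp_apply, ih, pow_succ]
    rfl

/-- A commuting family of two-power order normalising the generators can be added. -/
lemma Inv.family {T : Set ((ι → ℝ) → ι → ℝ)} (h : Inv T) {J : Type} (k : ℕ)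
    (σ : J → (ι → ℝ) → ι → ℝ) (hσ : ∀ j, Keeps (σ j))
    (hn : ∀ j, ∀ t ∈ T, ∃ w, Word T w ∧ σ j ∘ t = w ∘ σ j)
    (hc : ∀ i j, σ j ∘ σ i = σ i ∘ σ j) (hp : ∀ j, (σ j)^[2 ^ k] = id) (S : Finset J) :
    Inv (T ∪ σ '' (S : Set J)) := by
  classical
  induction S using Finset.induction_on with
  | empty => simpa using h
  | @insert j S _ ih =>
    rw [coe_insert, Set.image_insert_eq, Set.union_insert]
    refine ih.extend_pow k (hσ j) (fun t ht => ?_) (by rw [hp j]; exact .one)
    rcases ht with ht | ⟨i, hi, rfl⟩
    · obtain ⟨w, hw, he⟩ := hn j t ht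
      exact ⟨w, hw.mono Set.subset_union_left, he⟩
    · exact ⟨σ i, .single (Or.inr ⟨i, hi, rfl⟩), hc i j⟩

/-- All sign changes are available. -/
lemma inv_flips [DecidableEq ι] : Inv (Set.range (flipAt (ι := ι))) := by
  have h := (inv_empty (ι := ι)).family 1 flipAt keeps_flipAt (fun _ t ht => absurd ht (Set.notMem_empty t))
    (fun i j => by funext x l; simp only [Function.comp_apply, flipAt]; split_ifs <;> rfl)
    (fun j => by funext x l; simp only [pow_one, Function.iterate_succ_apply,
      Function.iterate_zero_apply, flipAt, id_eq]; split_ifs <;> simp) univ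
  simpa [Set.image_univ] using h

/-- A coordinate permutation sends each sign change to a sign change. -/
lemma permAct_flipAt [DecidableEq ι] (e : Equiv.Perm ι) (i : ι) :
    permAct e ∘ flipAt i = flipAt (e.symm i) ∘ permAct e := by
  funext x j
  simp only [Function.comp_apply, permAct, flipAt, Equiv.eq_symm_apply]

/-- Multiplication by signs is a composition of sign changes. -/
lemma word_signs [DecidableEq ι] {T : Set ((ι → ℝ) → ι → ℝ)} (hT : ∀ i, flipAt i ∈ T)
    (S : Finset ι) : Word T fun x j => if j ∈ S then -x j else x j := by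
  induction S using Finset.induction_on with
  | empty => simp only [notMem_empty, if_false]; exact .one
  | @insert i S hi ih =>
    have := ih.cons (hT i)
    convert this using 1
    funext x j
    simp only [Function.comp_apply, flipAt, mem_insert]
    rcases eq_or_ne j i with rfl | hj
    · simp [hi]
    · simp [hj]

end Vale.Agent.P058.LRW
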