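import Mathlib
import Vale.Agent.P058.LRW.Gens
import Vale.Agent.P058.LRW.Columns

/-!
A chain of orbit classes in which any two are joined by a congruent copy, and the Ramsey property.
-/

namespace Vale.Agent.P058.LRW

open Finset

/-- `a` and `b` are the two rectangles' orbit representatives of one copy of size `√W`. -/
def Join (w : ℝ) {ι : Type} [Fintype ι] (W : ℝ) (a b : ι → ℝ) : Prop :=
  ∃ z p q : ι → ℝ, (∀ k, (z k = 0 ∨ (p k = 0 ∧ q k = 0)) ∧ (p k = 0 ∨ q k = 0) ∧
    a k = z k + colSt w (p k, q k) ∧ b k = z k + colEn w (p k, q k)) ∧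
    ∑ k, p k ^ 2 = W ∧ ∑ k, q k ^ 2 = W

lemma join_refl (w : ℝ) {ι : Type} [Fintype ι] (a : ι → ℝ) : Join w 0 a a :=
  ⟨a, 0, 0, fun k => by simp [colSt, colEn], by simp, by simp⟩

lemma join_prod (w : ℝ) {M ι : Type} [Fintype M] [Fintype ι] {W : M → ℝ} {a b : M × ι → ℝ}
    (h : ∀ m, Join w (W m) (fun k => a (m, k)) (fun k => b (m, k))) :
    Join w (∑ m, W m) a b := by
  choose z p q hk hp hq using h
  exact ⟨fun x => z x.1 x.2, fun x => p x.1 x.2, fun x => q x.1 x.2, fun x => hk x.1 x.2,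
    by simp [Fintype.sum_prod_type, hp], by simp [Fintype.sum_prod_type, hq]⟩

variable (w : ℝ) {ιU ιV : Type} (U : ιU → ℝ × ℝ) (V : ιV → ℝ × ℝ) (D : ℕ)

/-- The state of a bundle: whether `V` has moved, and how many `U` have moved. -/
noncomputable def bundle (f : Bool) (a : ℕ) : ιV ⊕ Fin D × ιU → ℝ :=
  Sum.elim (fun v => if f then colEn w (V v) else colSt w (V v))
    (fun x => if (x.1 : ℕ) < a then colEn w (U x.2) else colSt w (U x.2))

/-- The state of a leaf: `n` live layers and dummy layers at the exchanged state. -/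
noncomputable def leaf (E n : ℕ) (f : Bool) (a : ℕ) : Fin E × (ιV ⊕ Fin D × ιU) → ℝ :=
  fun x => if (x.1 : ℕ) < n then bundle w U V D f a x.2 else bundle w U V D false D x.2

variable [Fintype ιU] [Fintype ιV]

lemma join_step {m : ℝ} (hU : ∀ x, (U x).1 = 0 ∨ (U x).2 = 0) (h1 : ∑ x, (U x).1 ^ 2 = m)
    (h2 : ∑ x, (U x).2 ^ 2 = m) (f : Bool) {a : ℕ} (ha : a < D) :
    Join w m (bundle w U V D f a) (bundle w U V D f (a + 1)) := by
  refine ⟨Sum.elim (fun v => if f then colEn w (V v) else colSt w (V v))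
      (fun x => if (x.1 : ℕ) < a then colEn w (U x.2) else if x.1 = (⟨a, ha⟩ : Fin D) then 0
        else colSt w (U x.2)),
    Sum.elim 0 (fun x => if x.1 = (⟨a, ha⟩ : Fin D) then (U x.2).1 else 0),
    Sum.elim 0 (fun x => if x.1 = (⟨a, ha⟩ : Fin D) then (U x.2).2 else 0), ?_, ?_, ?_⟩
  · rintro (v | ⟨d, u⟩)
    · simp [bundle, colSt, colEn]
    · rcases eq_or_ne d (⟨a, ha⟩ : Fin D) with rfl | hd
      · simpa [bundle] using hU u
      · have hne : (d : ℕ) ≠ a := fun e => hd (Fin.ext e)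
        simp only [Sum.elim_inr, bundle, if_neg hd, colSt, colEn, mul_zero, add_zero]
        refine ⟨Or.inr ⟨trivial, trivial⟩, Or.inl trivial, trivial, ?_⟩
        rcases lt_or_gt_of_ne hne with hlt | hgt
        · rw [if_pos hlt, if_pos (by omega)]
        · rw [if_neg (by omega), if_neg (by omega)]
  · simp [Fintype.sum_sum_type, Fintype.sum_prod_type, ite_pow, h1]
  · simp [Fintype.sum_sum_type, Fintype.sum_prod_type, ite_pow, h2]

lemma join_jump {m : ℝ} (hV : ∀ x, (V x).1 = 0 ∨ (V x).2 = 0) (h1 : ∑ x, (V x).1 ^ 2 = m)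
    (h2 : ∑ x, (V x).2 ^ 2 = m) (a : ℕ) :
    Join w m (bundle w U V D false a) (bundle w U V D true a) := by
  refine ⟨Sum.elim 0 (fun x => if (x.1 : ℕ) < a then colEn w (U x.2) else colSt w (U x.2)),
    Sum.elim (fun v => (V v).1) 0, Sum.elim (fun v => (V v).2) 0, ?_, ?_, ?_⟩
  · rintro (v | x)
    · simpa [bundle] using hV v
    · simp [bundle, colSt, colEn]
  · simp [Fintype.sum_sum_type, h1]
  · simp [Fintype.sum_sum_type, h2]

lemma join_leaf {m : ℝ} {E n : ℕ} (hn : n ≤ E) {f f' : Bool} {a a' : ℕ}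
    (h : Join w m (bundle w U V D f a) (bundle w U V D f' a')) :
    Join w (n * m) (leaf w U V D E n f a) (leaf w U V D E n f' a') := by
  have hsum : ∑ k : Fin E, (if (k : ℕ) < n then m else 0) = n * m := by
    have hcard : (range E).filter (fun k => k < n) = range n := by
      ext k; simp only [mem_filter, mem_range]; omega
    rw [Fin.sum_univ_eq_sum_range (fun k => if k < n then m else 0), ← sum_filter, hcard, sum_const,
      card_range, nsmul_eq_mul]
  rw [← hsum]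
  refine join_prod w fun k => ?_
  by_cases hk : (k : ℕ) < n
  · simp only [if_pos hk, leaf]; exact h
  · simp only [if_neg hk, leaf]; exact join_refl w _

/-- A leaf permutation of two-power order exchanging one `V` and `D` units `U`. -/
lemma exists_leaf_perm (π : Equiv.Perm (ιV ⊕ Fin D × ιU))
    (hπ : ∀ x, bundle w U V D false D (π x) = bundle w U V D true 0 x) :
    ∃ n : ℕ, 0 < n ∧ n ≤ 2 ^ n ∧ ∃ σ : Equiv.Perm (Fin (2 ^ n) × (ιV ⊕ Fin D × ιU)),
      σ ^ (2 ^ n) = 1 ∧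
      ∀ x, leaf w U V D (2 ^ n) n false D (σ x) = leaf w U V D (2 ^ n) n true 0 x := by
  set n := orderOf π with hn
  have hn0 : 0 < n := orderOf_pos π
  have hlt : n < 2 ^ n := Nat.lt_two_pow_self
  refine ⟨n, hn0, hlt.le, ?_⟩
  set E := 2 ^ n with hE
  have : NeZero E := ⟨by omega⟩
  let twist : Equiv.Perm (Fin E × (ιV ⊕ Fin D × ιU)) :=
    Equiv.prodShear (Equiv.refl (Fin E)) fun k => π ^ min (k : ℕ) n
  let shift : Equiv.Perm (Fin E × (ιV ⊕ Fin D × ιU)) :=
    Equiv.prodCongr (Equiv.addRight (1 : Fin E)) (Equiv.refl _)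
  have hshift : shift ^ E = 1 := by
    ext1 ⟨k, x⟩
    have hpow : ∀ j : ℕ, (shift ^ j) (k, x) = (k + j • (1 : Fin E), x) := by
      intro j
      induction j with
      | zero => simp
      | succ j ih =>
        rw [pow_succ', Equiv.Perm.mul_apply, ih]
        simp [shift, add_assoc, succ_nsmul]
    have hz : E • (1 : Fin E) = 0 := by simpa using card_nsmul_eq_zero' (G := Fin E) (x := 1)
    simp [hpow, hz]
  refine ⟨twist * shift * twist⁻¹, by rw [conj_pow, hshift, mul_one, mul_inv_cancel], fun y => ?_⟩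
  obtain ⟨⟨k, x⟩, rfl⟩ := twist.surjective y
  have hπn : π ^ n = 1 := pow_orderOf_eq_one π
  have hr : ∀ j : Fin E, ∀ x, leaf w U V D E n false D (j, x) = bundle w U V D false D x := by
    intro j x; simp [leaf]
  have hcase : ∀ x, ((twist * shift * twist⁻¹) (twist (k, x))).2 = (π ^ min ((k + 1 : Fin E) : ℕ) n) x := by
    intro x; simp [twist, shift]
  rw [show (twist * shift * twist⁻¹) (twist (k, x)) = (k + 1, (π ^ min ((k + 1 : Fin E) : ℕ) n) x) from
    Prod.ext (by simp [twist, shift]) (hcase x), hr]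
  simp only [leaf, twist, Equiv.prodShear_apply, Equiv.refl_apply]
  by_cases hk : (k : ℕ) < n
  · have hk1 : ((k + 1 : Fin E) : ℕ) = k + 1 := Fin.val_add_one_of_lt' (by omega)
    rw [if_pos hk, hk1, min_eq_left hk.le, min_eq_left (by omega : (k : ℕ) + 1 ≤ n), pow_succ',
      Equiv.Perm.mul_apply, hπ]
  · rw [if_neg hk, min_eq_right (by omega : n ≤ (k : ℕ))]
    by_cases hlast : (k : ℕ) + 1 < E
    · rw [Fin.val_add_one_of_lt' hlast, min_eq_right (by omega)]
    · have : k + 1 = (0 : Fin E) := by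
        apply Fin.ext
        simp [Fin.val_add, show (k : ℕ) + 1 = E by omega]
      simp [this, hπn]

/-- Units with equal masses and an exchange permutation. -/
theorem exists_units {w : ℝ} (h0 : 5 / 8 ≤ w) (h1 : w < 1) {D : ℕ} (hD : 2 ≤ D) :
    ∃ (ιU ιV : Type) (_ : Fintype ιU) (_ : Fintype ιV) (U : ιU → ℝ × ℝ) (V : ιV → ℝ × ℝ) (m : ℝ)
      (π : Equiv.Perm (ιV ⊕ Fin D × ιU)),
      0 < m ∧ (∀ x, (U x).1 = 0 ∨ (U x).2 = 0) ∧ (∀ x, (V x).1 = 0 ∨ (V x).2 = 0) ∧
      ∑ x, (U x).1 ^ 2 = m ∧ ∑ x, (U x).2 ^ 2 = m ∧ ∑ x, (V x).1 ^ 2 = m ∧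
      ∑ x, (V x).2 ^ 2 = m ∧ ∀ x, bundle w U V D false D (π x) = bundle w U V D true 0 x := by
  obtain ⟨ιP, ιN, hP', hN', cp, cn, e, P, N, he, hp, hn, p1, p2, n1, n2, hN, hlt⟩ :=
    exists_columns h0 h1 D
  have hD' : (2 : ℝ) ≤ D := by exact_mod_cast hD
  have hP : 0 < P := lt_of_le_of_lt (mul_nonneg (by linarith) hN) hlt
  have hden : 0 < D * P - N := by nlinarith
  set g := Real.sqrt ((P - D * N) / (D * P - N)) with hg
  have hg2 : g ^ 2 = (P - D * N) / (D * P - N) :=
    Real.sq_sqrt (div_nonneg (by linarith) hden.le)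
  let U : ιP ⊕ ιN → ℝ × ℝ := Sum.elim cp (fun x => g • cn x)
  let V : Fin D × ιN ⊕ Fin D × ιP → ℝ × ℝ := Sum.elim (fun x => cn x.2) (fun x => g • cp x.2)
  let split : ((Fin D × ιN ⊕ Fin D × ιP) ⊕ Fin D × (ιP ⊕ ιN)) ≃
      (Fin D × (ιP ⊕ ιN)) ⊕ (Fin D × (ιP ⊕ ιN)) :=
    { toFun := fun y => match y with
        | .inl (.inl (d, x)) => .inl (d, .inr x)
        | .inl (.inr (d, x)) => .inr (d, .inl x)
        | .inr (d, .inl x) => .inl (d, .inl x)
        | .inr (d, .inr x) => .inr (d, .inr x)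
      invFun := fun y => match y with
        | .inl (d, .inr x) => .inl (.inl (d, x))
        | .inr (d, .inl x) => .inl (.inr (d, x))
        | .inl (d, .inl x) => .inr (d, .inl x)
        | .inr (d, .inr x) => .inr (d, .inr x)
      left_inv := by rintro ((⟨d, x⟩ | ⟨d, x⟩) | ⟨d, x | x⟩) <;> rfl
      right_inv := by rintro (⟨d, x | x⟩ | ⟨d, x | x⟩) <;> rfl }
  let A := Sum.elim (colSt w ∘ cp) (colEn w ∘ cn)
  let B := Sum.elim (colEn w ∘ cp) (colSt w ∘ cn)
  have hA : ∀ y, A (e y) = B y := he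
  have hsmSt : ∀ x, colSt w (g • x) = g * colSt w x := fun x => by simp [colSt]; ring
  have hsmEn : ∀ x, colEn w (g • x) = g * colEn w x := fun x => by simp [colEn]; ring
  have hr : ∀ y, bundle w U V D false D y =
      Sum.elim (fun z => B z.2) (fun z => g * A z.2) (split y) := by
    rintro ((⟨d, x⟩ | ⟨d, x⟩) | ⟨d, x | x⟩) <;> simp [bundle, U, V, A, B, split, hsmSt, hsmEn]
  have hl : ∀ y, bundle w U V D true 0 y =
      Sum.elim (fun z => A z.2) (fun z => g * B z.2) (split y) := by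
    rintro ((⟨d, x⟩ | ⟨d, x⟩) | ⟨d, x | x⟩) <;> simp [bundle, U, V, A, B, split, hsmSt, hsmEn]
  let π : Equiv.Perm ((Fin D × ιN ⊕ Fin D × ιP) ⊕ Fin D × (ιP ⊕ ιN)) :=
    split.trans ((Equiv.sumCongr (Equiv.prodCongr (Equiv.refl _) e.symm)
      (Equiv.prodCongr (Equiv.refl _) e)).trans split.symm)
  refine ⟨ιP ⊕ ιN, Fin D × ιN ⊕ Fin D × ιP, inferInstance, inferInstance, U, V, P + g ^ 2 * N, π,
    ?_, ?_, ?_, ?_, ?_, ?_, ?_, fun y => ?_⟩
  · nlinarith [sq_nonneg g]
  · rintro (x | x)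
    · simpa [U] using hp x
    · rcases hn x with h | h <;> simp [U, h]
  · rintro (x | x)
    · simpa [V] using hn x.2
    · rcases hp x.2 with h | h <;> simp [V, h]
  · simp [U, mul_pow, Fintype.sum_sum_type, ← mul_sum, p1, n1]
  · simp [U, mul_pow, Fintype.sum_sum_type, ← mul_sum, p2, n2]
  · simp [V, mul_pow, Fintype.sum_sum_type, Fintype.sum_prod_type, ← mul_sum, p1, n1]
    rw [hg2]; field_simp; ring
  · simp [V, mul_pow, Fintype.sum_sum_type, Fintype.sum_prod_type, ← mul_sum, p2, n2]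
    rw [hg2]; field_simp; ring
  · rw [hr, hl, show split (π y) = (Equiv.sumCongr (Equiv.prodCongr (Equiv.refl _) e.symm)
      (Equiv.prodCongr (Equiv.refl _) e)) (split y) by simp [π]]
    rcases split y with ⟨d, x⟩ | ⟨d, x⟩
    · have := hA (e.symm x)
      rw [e.apply_symm_apply] at this
      simpa using this.symm
    · simp [hA x]

end Vale.Agent.P058.LRW
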