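import Mathlib
import Vale.Agent.P058.LRW.Chain

/-!
The two rectangles form a Ramsey set.
-/

namespace Vale.Agent.P058.LRW

open Finset

/-- The first state of leaf `m` at vertex `v`. -/
def vertexState (L v m : ℕ) : Bool × ℕ :=
  if m < v then (if m = 0 then (false, L) else (true, m - 1)) else (false, m)

/-- The state of leaf `m` after the edge from `v` to `t`, before canonicalisation. -/
def edgeState (L v t m : ℕ) : Bool × ℕ :=
  if m < v then (if m = 0 then (false, L + 1) else (true, m))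
  else if m + 1 < t then (true, m) else (false, m + 1)

/-- The canonical state of the following leaf at `t`. -/
lemma vertexState_succ {L v t m : ℕ} (hvt : v < t) (ht : t ≤ L) (hm : m < L) (hm0 : 0 < m ∨ v = 0) :
    vertexState L t ((m + 1) % L) = edgeState L v t m := by
  rcases Nat.lt_or_ge (m + 1) L with h | h
  · rw [Nat.mod_eq_of_lt h]
    simp only [vertexState, edgeState, Nat.add_one_ne_zero, if_false, Nat.add_sub_cancel]
    split_ifs <;> first | rfl | (exfalso; omega)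
  · have hmL : m + 1 = L := by omega
    rw [hmL, Nat.mod_self]
    simp only [vertexState, edgeState, if_true, if_pos (show 0 < t by omega),
      if_neg (show ¬m < v by omega), if_neg (show ¬m + 1 < t by omega)]
    rw [hmL]

/-- An orbit-colouring chain: every two of `r+1` classes are joined by a copy. -/
theorem exists_chain {w : ℝ} (h0 : 5 / 8 ≤ w) (h1 : w < 1) (r : ℕ) :
    ∃ (ι : Type) (_ : Fintype ι) (T : Set ((ι → ℝ) → ι → ℝ)) (W : ℝ) (C : ℕ → ι → ℝ)
      (B : ℕ → ℕ → ι → ℝ), 0 < W ∧ Inv T ∧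
      (∀ ε : ι → Bool, ∃ f, Word T f ∧ ∀ x k, f x k = sgn (ε k) * x k) ∧
      ∀ v t, v < t → t ≤ r → Join w W (C v) (B v t) ∧
        ∃ f g, Word T f ∧ Word T g ∧ f (B v t) = g (C t) := by
  classical
  set L := 2 ^ (r + 1) with hL
  have hrL : r < L := Nat.lt_of_lt_of_le (Nat.lt_succ_self r) Nat.lt_two_pow_self.le
  have hL2 : 2 ≤ L := by
    calc 2 = 2 ^ 1 := rfl
      _ ≤ L := Nat.pow_le_pow_right (by norm_num) (Nat.succ_le_succ (Nat.zero_le r))
  have : NeZero L := ⟨by omega⟩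
  obtain ⟨ιU, ιV, hU', hV', U, V, m, π, hm, hUa, hVa, u1, u2, v1, v2, hπ⟩ :=
    exists_units h0 h1 (D := L + 1) (by omega)
  obtain ⟨n, hn0, hnE, σ, hσE, hσ⟩ := exists_leaf_perm w U V (L + 1) π hπ
  set st : Bool × ℕ → Fin (2 ^ n) × (ιV ⊕ Fin (L + 1) × ιU) → ℝ :=
    fun s => leaf w U V (L + 1) (2 ^ n) n s.1 s.2 with hst
  let ι := Fin L × (Fin (2 ^ n) × (ιV ⊕ Fin (L + 1) × ιU))
  let lp : Fin L → Equiv.Perm ι := fun i =>
    Equiv.prodShear (Equiv.refl (Fin L)) fun j => if j = i then σ else 1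
  let sh : Equiv.Perm ι := Equiv.prodCongr (Equiv.addRight (1 : Fin L)) (Equiv.refl _)
  have hlp : ∀ (i : Fin L) (x : ι), lp i x = (x.1, (if x.1 = i then σ else 1) x.2) := fun i x => rfl
  have hlpN : ∀ (i : Fin L) (N : ℕ) (x : ι),
      (lp i ^ N) x = (x.1, ((if x.1 = i then σ else 1) ^ N) x.2) := by
    intro i N x
    induction N with
    | zero => simp
    | succ N ih => rw [pow_succ', pow_succ', Equiv.Perm.mul_apply, ih, hlp]; rfl
  have hlpE : ∀ i, lp i ^ 2 ^ n = 1 := by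
    intro i; ext1 x
    rw [hlpN]
    split <;> simp [hσE]
  have hshN : ∀ (N : ℕ) (x : ι), (sh ^ N) x = (x.1 + N • (1 : Fin L), x.2) := by
    intro N x
    induction N with
    | zero => simp
    | succ N ih =>
      rw [pow_succ', Equiv.Perm.mul_apply, ih]
      change (x.1 + N • (1 : Fin L) + 1, x.2) = _
      rw [succ_nsmul, add_assoc]
  have hshapp : ∀ x : ι, sh x = (x.1 + 1, x.2) := fun x => rfl
  have hshL : sh ^ L = 1 := by
    ext1 x
    have : L • (1 : Fin L) = 0 := by simpa using card_nsmul_eq_zero' (G := Fin L) (x := 1)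
    simp [hshN, this]
  set T₁ : Set ((ι → ℝ) → ι → ℝ) := Set.range (flipAt (ι := ι)) with hT₁
  have hT₁n : ∀ (e : Equiv.Perm ι), ∀ f ∈ T₁, ∃ g, Word T₁ g ∧ permAct e ∘ f = g ∘ permAct e := by
    rintro e f ⟨i, rfl⟩
    exact ⟨flipAt (e.symm i), .single ⟨_, rfl⟩, permAct_flipAt e i⟩
  have hT₂ : Inv (T₁ ∪ (fun i => permAct (lp i)) '' ((univ : Finset (Fin L)) : Set (Fin L))) := by
    refine inv_flips.family n _ (fun i => keeps_permAct _) (fun i => hT₁n _) (fun i j => ?_)
      (fun i => by rw [permAct_iterate, hlpE]; rfl) univ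
    funext x k
    simp only [Function.comp_apply, permAct, hlp]
    rcases eq_or_ne i j with rfl | hij
    · rfl
    · by_cases hi : k.1 = i
      · simp [hi, hij]
      · simp [hi]
  set T₂ := T₁ ∪ (fun i => permAct (lp i)) '' ((univ : Finset (Fin L)) : Set (Fin L)) with hT₂'
  have hT : Inv (insert (permAct sh) T₂) := by
    refine hT₂.extend_pow (r + 1) (keeps_permAct _) (fun f hf => ?_) ?_
    · rcases hf with hf | ⟨i, -, rfl⟩
      · obtain ⟨g, hg, he⟩ := hT₁n sh f hf
        exact ⟨g, hg.mono Set.subset_union_left, he⟩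
      · refine ⟨permAct (lp (i - 1)), .single (Or.inr ⟨i - 1, by simp, rfl⟩), ?_⟩
        funext x k
        simp only [Function.comp_apply, permAct, hlp, sh, eq_sub_iff_add_eq]
        rfl
    · rw [permAct_iterate, ← hL, hshL]; exact .one
  let C : ℕ → ι → ℝ := fun v x => st (vertexState L v x.1) x.2
  let B : ℕ → ℕ → ι → ℝ := fun v t x => st (edgeState L v t x.1) x.2
  refine ⟨ι, inferInstance, insert (permAct sh) T₂, L * (n * m), C, B, by positivity, hT, ?_, ?_⟩
  · intro ε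
    refine ⟨_, word_signs (fun i => Set.mem_insert_of_mem _ (Or.inl ⟨i, rfl⟩))
      (univ.filter fun k => ε k = false), fun x k => ?_⟩
    cases h : ε k <;> simp [h, sgn]
  intro v t hvt htr
  constructor
  · have key : ∀ i : Fin L, Join w (n * m) (st (vertexState L v i)) (st (edgeState L v t i)) := by
      intro i
      have hiL := i.isLt
      have hstep : ∀ f a, a < L + 1 → Join w (n * m) (st (f, a)) (st (f, a + 1)) := fun f a ha =>
        join_leaf w U V (L + 1) hnE (join_step w U V (L + 1) hUa u1 u2 f ha)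
      have hjump : ∀ a, Join w (n * m) (st (false, a)) (st (true, a)) := fun a =>
        join_leaf w U V (L + 1) hnE (join_jump w U V (L + 1) hVa v1 v2 a)
      simp only [vertexState, edgeState]
      split_ifs with a b c
      · exact hstep _ _ (by omega)
      · obtain ⟨j, hj⟩ := Nat.exists_eq_succ_of_ne_zero b
        rw [hj, Nat.succ_sub_one]
        exact hstep _ _ (by omega)
      · exact hjump _
      · exact hstep _ _ (by omega)
    have := join_prod w (a := C v) (b := B v t) (W := fun _ : Fin L => (n : ℝ) * m) key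
    simpa using this
  · have hval : ∀ i : Fin L, ((i + 1 : Fin L) : ℕ) = ((i : ℕ) + 1) % L := by
      intro i
      rw [Fin.val_add, Fin.val_one', Nat.add_mod_mod]
    have hg : Word (insert (permAct sh) T₂) (permAct sh) := .single (Set.mem_insert _ _)
    rcases Nat.eq_zero_or_pos v with hv | hv
    · refine ⟨id, permAct sh, .one, hg, ?_⟩
      funext x
      simp only [id, permAct, B, C, hshapp, hval]
      rw [vertexState_succ hvt (by omega) x.1.isLt (Or.inr hv)]
    · refine ⟨permAct (lp 0), permAct sh, .single (Set.mem_insert_of_mem _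
        (Or.inr ⟨0, by simp, rfl⟩)), hg, ?_⟩
      funext x
      simp only [permAct, B, C, hshapp, hlp, hval]
      by_cases hx : x.1 = 0
      · have e1 : edgeState L v t ((0 : Fin L) : ℕ) = (false, L + 1) := by
          simp [edgeState, hv]
        have e2 : vertexState L t ((((0 : Fin L) : ℕ) + 1) % L) = (true, 0) := by
          rw [Fin.val_zero, zero_add, Nat.mod_eq_of_lt (by omega)]
          simp [vertexState, show 1 < t by omega]
        rw [if_pos hx, hx, e1, e2]
        exact hσ x.2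
      · rw [if_neg hx, Equiv.Perm.one_apply,
          vertexState_succ hvt (by omega) x.1.isLt (Or.inl ?_)]
        exact Nat.pos_of_ne_zero fun e => hx (Fin.ext (by simpa using e))

/-- Every colouring of some space has a monochromatic copy of the two rectangles. -/
theorem ramsey {w : ℝ} (h0 : 5 / 8 ≤ w) (h1 : w < 1) (r : ℕ) :
    ∃ D : ℕ, 1 ≤ D ∧ ∀ col : EuclideanSpace ℝ (Fin D) → Fin r,
      ∃ q : Bool × Bool × Bool → EuclideanSpace ℝ (Fin D),
        (∀ i j, dist (q i) (q j) = dist (pnt w i) (pnt w j)) ∧ ∀ i j, col (q i) = col (q j) := by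
  classical
  obtain ⟨ι, hι, T, W, C, B, hW, hT, hsign, hedge⟩ := exists_chain h0 h1 r
  have hjoin : ∀ e : {e : Fin (r + 1) × Fin (r + 1) // e.1 < e.2},
      ∃ z p q : ι → ℝ, (∀ k, (z k = 0 ∨ (p k = 0 ∧ q k = 0)) ∧ (p k = 0 ∨ q k = 0) ∧
        C e.1.1 k = z k + colSt w (p k, q k) ∧ B e.1.1 e.1.2 k = z k + colEn w (p k, q k)) ∧
        ∑ k, p k ^ 2 = W ∧ ∑ k, q k ^ 2 = W ∧
        ∃ f g, Word T f ∧ Word T g ∧ f (B e.1.1 e.1.2) = g (C e.1.2) := fun e => by
    obtain ⟨⟨z, p, q, h⟩, hw⟩ := hedge e.1.1 e.1.2 e.2 (by have := e.1.2.isLt; omega)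
    exact ⟨z, p, q, h.1, h.2.1, h.2.2, hw⟩
  choose z p q hk hp hq f g hf hg hfg using hjoin
  let row : {e : Fin (r + 1) × Fin (r + 1) // e.1 < e.2} → Bool × Bool × Bool → ι → ℝ :=
    fun e i k => z e k + (sgn i.2.1 * sideX w i.1) * p e k + (sgn i.2.2 * sideY w i.1) * q e k
  let base : {e : Fin (r + 1) × Fin (r + 1) // e.1 < e.2} → Bool → ι → ℝ :=
    fun e b => if b then C e.1.1 else B e.1.1 e.1.2
  have hrow : ∀ e i, ∃ φ, Word T φ ∧ row e i = φ (base e i.1) := by
    intro e i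
    obtain ⟨φ, hφ, hφe⟩ := hsign fun k =>
      if p e k ≠ 0 then i.2.1 else if q e k ≠ 0 then i.2.2 else true
    refine ⟨φ, hφ, funext fun k => ?_⟩
    obtain ⟨hz, hpq, hC, hB⟩ := hk e k
    rw [hφe]
    rcases i with ⟨b, e₁, e₂⟩
    by_cases hp0 : p e k = 0
    · by_cases hq0 : q e k = 0
      · cases b <;> simp [row, base, hp0, hq0, hC, hB, colSt, colEn, sgn]
      · have hz0 : z e k = 0 := hz.resolve_right fun h => hq0 h.2
        cases b <;> simp [row, base, hp0, hq0, hz0, hC, hB, colSt, colEn] <;> ring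
    · have hz0 : z e k = 0 := hz.resolve_right fun h => hp0 h.1
      have hq0 : q e k = 0 := hpq.resolve_left hp0
      cases b <;> simp [row, base, hp0, hq0, hz0, hC, hB, colSt, colEn] <;> ring
  let E : Finset ((ι → ℝ) × (ι → ℝ)) :=
    univ.image (fun ei : {e : Fin (r + 1) × Fin (r + 1) // e.1 < e.2} × (Bool × Bool × Bool) =>
      (base ei.1 ei.2.1, row ei.1 ei.2))
    ∪ (univ.image fun e => (B e.1.1 e.1.2, f e (B e.1.1 e.1.2)))
    ∪ univ.image fun e => (C (e.1.2 : ℕ), g e (C (e.1.2 : ℕ)))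
  have hE : ∀ x ∈ E, ∃ φ, Word T φ ∧ x.2 = φ x.1 := by
    intro x hx
    simp only [E, mem_union, mem_image, mem_univ, true_and] at hx
    rcases hx with (⟨⟨e, i⟩, rfl⟩ | ⟨e, rfl⟩) | ⟨e, rfl⟩
    · exact hrow e i
    · exact ⟨f e, hf e, rfl⟩
    · exact ⟨g e, hg e, rfl⟩
  obtain ⟨κ, hκ, Φs, hΦs, hach⟩ := hT.words E hE (Fin r)
  let eκ : κ ⊕ Unit ≃ Fin (Fintype.card (κ ⊕ Unit)) := Fintype.equivFin _
  refine ⟨Fintype.card (κ ⊕ Unit), by simp, fun col => ?_⟩
  let c : ℝ := (Real.sqrt W)⁻¹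
  let emb : (κ → ℝ) → EuclideanSpace ℝ (Fin (Fintype.card (κ ⊕ Unit))) := fun x =>
    WithLp.toLp 2 fun j => c * Sum.elim x (fun _ => 0) (eκ.symm j)
  obtain ⟨Φ, hΦ, hcol⟩ := hach fun x => col (emb x)
  obtain ⟨a, b, hab, heq⟩ := Fintype.exists_ne_map_eq_of_card_lt
    (fun v : Fin (r + 1) => col (emb (Φ (C v)))) (by simp)
  wlog hlt : a < b generalizing a b
  · exact this b a hab.symm heq.symm (lt_of_le_of_ne (not_lt.1 hlt) hab.symm)
  let e₀ : {e : Fin (r + 1) × Fin (r + 1) // e.1 < e.2} := ⟨(a, b), hlt⟩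
  have hmem1 : ∀ i, (base e₀ i.1, row e₀ i) ∈ E := fun i =>
    mem_union_left _ (mem_union_left _ (mem_image.2 ⟨(e₀, i), mem_univ _, rfl⟩))
  have hBC : col (emb (Φ (B (a : ℕ) (b : ℕ)))) = col (emb (Φ (C (b : ℕ)))) := by
    have h1 := hcol _ (mem_union_left _ (mem_union_right _ (mem_image.2 ⟨e₀, mem_univ _, rfl⟩)) :
      (B (a : ℕ) (b : ℕ), f e₀ (B (a : ℕ) (b : ℕ))) ∈ E)
    have h2 := hcol _ (mem_union_right _ (mem_image.2 ⟨e₀, mem_univ _, rfl⟩) :
      (C (b : ℕ), g e₀ (C (b : ℕ))) ∈ E)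
    simp only at h1 h2
    rw [h1, h2]
    exact congrArg (fun x => col (emb (Φ x))) (hfg e₀)
  have hall : ∀ i, col (emb (Φ (row e₀ i))) = col (emb (Φ (C (a : ℕ)))) := by
    intro i
    have := hcol _ (hmem1 i)
    simp only at this
    rw [← this]
    cases i.1
    · simp only [base, Bool.false_eq_true, if_false, e₀]
      rw [hBC]
      exact heq.symm
    · simp [base, e₀]
  refine ⟨fun i => emb (Φ (row e₀ i)), fun i j => ?_, fun i j => by rw [hall, hall]⟩
  rw [EuclideanSpace.dist_eq, EuclideanSpace.dist_eq]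
  congr 1
  have hc : c ^ 2 * W = 1 := by
    simp only [c]
    rw [inv_pow, Real.sq_sqrt hW.le, inv_mul_cancel₀ hW.ne']
  have hemb : ∀ x y, ∑ d, dist ((emb x) d) ((emb y) d) ^ 2 = c ^ 2 * sqd x y := by
    intro x y
    simp only [emb, Real.dist_eq, sq_abs, sqd, mul_sum]
    rw [← eκ.sum_comp]
    simp only [Equiv.symm_apply_apply, Fintype.sum_sum_type, Sum.elim_inl, Sum.elim_inr, sub_self]
    simp [← mul_sub, mul_pow]
  rw [hemb, hΦs Φ hΦ]
  set dx := sgn i.2.1 * sideX w i.1 - sgn j.2.1 * sideX w j.1 with hdx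
  set dy := sgn i.2.2 * sideY w i.1 - sgn j.2.2 * sideY w j.1 with hdy
  have hsq : sqd (row e₀ i) (row e₀ j) = W * (dx ^ 2 + dy ^ 2) := by
    have : ∀ k, (row e₀ i k - row e₀ j k) ^ 2 = dx ^ 2 * p e₀ k ^ 2 + dy ^ 2 * q e₀ k ^ 2 := by
      intro k
      rcases (hk e₀ k).2.1 with h | h <;> simp [row, h, hdx, hdy] <;> ring
    rw [sqd, sum_congr rfl fun k _ => this k, sum_add_distrib, ← mul_sum, ← mul_sum, hp, hq]
    ring
  rw [hsq, ← mul_assoc, hc, one_mul]
  simp [pnt, Fin.sum_univ_two, Real.dist_eq, sq_abs, hdx, hdy]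

end Vale.Agent.P058.LRW
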